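import Vale.Agent.P305LC.Solve
import Vale.Agent.P305F.Main

/-!
# Local flows from a box
-/

namespace Vale.Agent.P305LC

open Vale.Agent.P305E Vale.Agent.P305F Vale.Agent.P305C Finset

variable {β σ : Type}

theorem geo_step {x y D b j : ℕ} (hD : 0 < D) (h : (x : ℝ) ≤ 2 ^ b * Real.exp (-(j / D)))
    (k : D * y + x ≤ D * x) : (y : ℝ) ≤ 2 ^ b * Real.exp (-((j + 1 : ℕ) / D)) := by
  have d : (0 : ℝ) < D := by exact_mod_cast hD
  have k' : (D : ℝ) * y + x ≤ D * x := by exact_mod_cast k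
  have e := Real.add_one_le_exp (-(1 / (D : ℝ)))
  have a : (y : ℝ) ≤ x * (-(1 / D) + 1) := by
    refine le_of_mul_le_mul_left ?_ d
    field_simp
    linarith
  rw [show -(((j + 1 : ℕ) : ℝ) / D) = -(j / D) + -(1 / D) by push_cast; ring, Real.exp_add,
    ← mul_assoc]
  exact a.trans ((mul_le_mul_of_nonneg_left e (Nat.cast_nonneg _)).trans
    (mul_le_mul_of_nonneg_right h (Real.exp_pos _).le))

theorem geo_bound {x D b j : ℕ} (hD : 0 < D) (h : (x : ℝ) ≤ 2 ^ b * Real.exp (-(j / D)))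
    (k : 0 < x) : j ≤ D * b := by
  have d : (0 : ℝ) < D := by exact_mod_cast hD
  have k' : (1 : ℝ) ≤ x := by exact_mod_cast k
  have e : (2 : ℝ) ^ b ≤ Real.exp b := by
    rw [← mul_one (b : ℝ), Real.exp_nat_mul]
    exact pow_le_pow_left₀ zero_le_two (by linarith [Real.add_one_le_exp 1]) _
  have a := (k'.trans h).trans (mul_le_mul_of_nonneg_right e (Real.exp_pos _).le)
  rw [← Real.exp_add, Real.one_le_exp_iff, ← sub_eq_add_neg, sub_nonneg, div_le_iff₀ d,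
    mul_comm] at a
  exact_mod_cast a

theorem arith {H m j b : ℕ} (h : b + 3 ≤ H) (hj : j ≤ 50 * H ^ 2 * b + 1) (hm : 1 ≤ m) :
    2 * j + 1 ≤ 30000 * H ^ 5 ∧
      10 * m + (j + 1) * (400 * (H * m * H) + 1) ≤ m * (30000 * H ^ 5) := by
  have j1 : j + 1 ≤ 52 * H ^ 3 := by
    have : 50 * H ^ 2 * b ≤ 50 * H ^ 2 * H := Nat.mul_le_mul_left _ (by omega)
    have : 1 ≤ H ^ 3 := Nat.one_le_pow _ _ (by omega)
    nlinarith
  have H5 : H ^ 3 ≤ H ^ 5 := Nat.pow_le_pow_right (by omega) (by omega)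
  have a1 : m ≤ H * m * H :=
    (Nat.le_mul_of_pos_left _ (by omega)).trans (Nat.le_mul_of_pos_right _ (by omega))
  have a2 := Nat.mul_le_mul j1 (show 400 * (H * m * H) + 1 + 10 * m ≤ 411 * (H * m * H) by omega)
  exact ⟨by omega, by nlinarith [Nat.zero_le (j * m), Nat.zero_le (m * H ^ 5)]⟩

theorem room {b c B : ℕ} (h : 2 ^ ((11 * c + 20) * (b + 4 + 1)) ≤ B) :
    2 ^ b * 2 ^ b + 2 ^ b ≤ B := by
  refine le_trans ?_ ((Nat.pow_le_pow_right two_pos (show b + b + 1 ≤ _ by nlinarith)).trans h)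
  have := Nat.le_mul_of_pos_left (2 ^ b) (Nat.two_pow_pos b)
  rw [pow_succ, pow_add]
  omega

/-- One round. -/
def round (X : Bx β) (nb : σ → ℕ → M (List Ac)) (mcf : ℕ → Net → M (Arr ℕ)) (st : σ)
    (b ρ n : ℕ) (q : St) : M (St ⊕ Out) := do
  let L ← norm q.2.2.2
  let sm ← filterP (fun p : ℕ × ℕ => decide (p.2 ≤ ρ)) L
  let big ← filterP (fun p : ℕ × ℕ => decide (¬ p.2 ≤ ρ)) L
  let don ← appendP sm q.2.2.1
  if big.isEmpty = true then pure (Sum.inr (q.1, q.2.1, don, [], []))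
  else solve X nb mcf st b ρ n (q.1, q.2.1, don, big)

/-- The local flow computation. -/
def locP (X : Bx β) (nb : σ → ℕ → M (List Ac)) (mcf : ℕ → Net → M (Arr ℕ)) (b : ℕ) (st : σ)
    (src : List (ℕ × ℕ)) (ρ : ℕ) : M Out := do
  let b' ← num (b + 4)
  let n ← pow2 b'
  let R ← mapP (fun p : ℕ × ℕ => p.1) src
  loopM (round X nb mcf st b' ρ n) n (Arr.const (Arr.const 0), R, [], src)

variable [Rep β] {X : Bx β} {c c' : ℕ} {g g' : ℕ → ℕ} {I : ℕ → ℕ → ℕ → OG → β → ℕ → Prop}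
  {mcf : ℕ → Net → M (Arr ℕ)} {nb : σ → ℕ → M (List Ac)}

theorem impl_locP [Rep σ] (h : BoxOK False X c g I) (hm : McfOK mcf c' g')
    (hn : Impl fun p : σ × ℕ => nb p.1 p.2) :
    Impl fun p : ℕ × σ × List (ℕ × ℕ) × ℕ => locP X nb mcf p.1 p.2.1 p.2.2.1 p.2.2.2 := by
  have h1 := impl_solve h hm hn
  have h2 := impl_norm
  have h3 : Impl fun p : σ × ℕ × ℕ × ℕ × St =>
      round X nb mcf p.1 p.2.1 p.2.2.1 p.2.2.2.1 p.2.2.2.2 := by
    unfold round
    refine Impl.bind (by fun_prop) (Impl.bind (by fun_prop) (Impl.bind (by fun_prop)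
      (Impl.bind (by fun_prop) (Impl.ite (PPred.of_bool (Pure.grow (by fun_prop))) (by fun_prop)
        (by fun_prop)))))
  unfold locP
  fun_prop

variable {N : Nw} {b B ρ n : ℕ} {U : Finset ℕ} {st : σ} {src : List (ℕ × ℕ)}

/-- The invariant after `j` rounds. -/
structure LI (N : Nw) (src : List (ℕ × ℕ)) (b ρ H m j : ℕ) (q : St) (t : ℕ) : Prop where
  flw : Flw N src (fun u v => (q.1.get u).get v) q.2.1 q.2.2.1 q.2.2.2
  key : ∀ p ∈ src, p.1 ∈ q.2.1
  le : ∀ u v, (q.1.get u).get v ≤ j * tot src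
  cnt : j + tot q.2.2.2 ≤ tot src
  don : ∀ v, ms q.2.2.1 v ≤ 2 * j * ρ
  geo : (tot q.2.2.2 : ℝ) ≤ 2 ^ b * Real.exp (-(j / (50 * H ^ 2 : ℕ)))
  few : j ≤ 50 * H ^ 2 * b + 1
  time : q.2.1.length + q.2.2.1.length + 8 * q.2.2.2.length + t ≤
    10 * m + j * (400 * (H * m * H) + 1)

theorem round_vt (h : BoxOK False X c g I) (hm : McfOK mcf c' g') (hE : Env N b B U (nb st))
    (h1 : 1 ≤ ρ) (h2 : ρ ≤ 2 ^ b) (hB : 2 ^ (c * (b + 4 + 1)) ≤ B)
    (hB' : 2 ^ ((11 * c' + 20) * (b + 4 + 1)) ≤ B) (hn : 2 ^ b < n) (hs : tot src ≤ 2 ^ b)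
    {H j t : ℕ} (H1 : g (b + 4) + cmG g' (b + 4) + b + 3 ≤ H) {q : St}
    (hq : LI N src b ρ H (tot src / ρ + src.length + 1) j q t) :
    Vt (b + 4) B (round X nb mcf st (b + 4) ρ n q) fun r t' => r.elim
      (fun q' => LI N src b ρ H (tot src / ρ + src.length + 1) (j + 1) q' (t + t' + 1) ∧
        tot q'.2.2.2 < tot q.2.2.2)
      fun o => LocRes N src ρ (30000 * H ^ 5) o (t + t') := by
  obtain ⟨f, R, don, rs⟩ := q
  obtain ⟨q1, q2, q3, q4, q5, q6, q7, q8⟩ := hq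
  dsimp only at q1 q2 q3 q4 q5 q6 q7 q8
  have m0 : tot src ≤ ρ * (tot src / ρ + src.length + 1) :=
    (Nat.lt_mul_div_succ _ h1).le.trans (Nat.mul_le_mul_left _ (by omega))
  have m1 : 1 ≤ tot src / ρ + src.length + 1 := Nat.le_add_left _ _
  have fin : ∀ o t, LocRes N src ρ (30000 * H ^ 5) o t ↔ _ := fun o t =>
    ⟨fun k => And.intro k.1 (And.intro k.2 (And.intro k.3 (And.intro k.4 k.5))),
      fun k => ⟨k.1, k.2.1, k.2.2.1, k.2.2.2.1, k.2.2.2.2⟩⟩
  simp only [fin]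
  generalize tot src / ρ + src.length + 1 = m at *
  have hD : 0 < 50 * H ^ 2 := by have : 0 < H := by omega
                                 positivity
  have B2 := room hB'
  have f1 : ∀ u v, (f.get u).get v ≤ tot src ^ 2 := fun u v =>
    (q3 u v).trans (by rw [sq]; exact Nat.mul_le_mul_right _ (by omega))
  obtain ⟨j1, j3⟩ := arith (show b + 3 ≤ H by omega) q7 m1
  have j2 := Nat.mul_le_mul_right ρ j1
  refine Vt.tbind (norm_tri (show tot rs ≤ B by omega)) ?_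
  rintro L t1 ⟨n1, n2, n3, n4, n5⟩
  dsimp only at n3 n4 n5 ⊢
  have n6 := tot_eq n3
  have n7 : ∀ p ∈ L, p.1 ∈ R := fun p hp => by
    by_contra a
    have := ms_eq_zero (L := src) (v := p.1) fun x hx e => a (e ▸ q2 x hx)
    have := q1.rest p.1
    have := n3 p.1
    have := le_ms hp
    have := n2 p hp
    omega
  have s1 := (q1.congr n3 n6).small n7 fun p => p.2 ≤ ρ
  have s2 : ∀ v, ms (L.filter (fun p => decide (p.2 ≤ ρ)) ++ don) v ≤ (2 * j + 1) * ρ := fun v => by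
    have := ms_le (n1.sublist ((List.filter_sublist (p := fun p => decide (p.2 ≤ ρ))).map _))
      (fun p hp => of_decide_eq_true (List.mem_filter.1 hp).2) v
    have := q5 v
    rw [ms_append, add_one_mul]
    omega
  have s3 := List.length_filter_le (fun p : ℕ × ℕ => decide (p.2 ≤ ρ)) L
  have s4 : ((L.filter fun p => decide (¬ p.2 ≤ ρ)).map Prod.fst).Nodup :=
    n1.sublist (List.filter_sublist.map _)
  have s5 : ∀ p ∈ L.filter fun p => decide (¬ p.2 ≤ ρ), N.nd p.1 ∧ ρ < p.2 := fun p hp =>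
    ⟨q1.nd _ (n7 p (List.mem_filter.1 hp).1), not_le.1 (of_decide_eq_true (List.mem_filter.1 hp).2)⟩
  have s6 : tot (L.filter fun p => decide (¬ p.2 ≤ ρ)) ≤ tot L :=
    le_of_add_le_right (sum_split L (fun p => p.2 ≤ ρ) Prod.snd).le
  refine Vt.tbind' ((Tri_filterP _ _ _).2 (Vt.tbind' ((Tri_filterP _ _ _).2
    (Vt.tbind' ((Tri_appendP _ _ _).2 ?_)))))
  have s7 := List.length_append (as := L.filter fun p => decide (p.2 ≤ ρ)) (bs := don)
  generalize (L.filter fun p => decide (¬ p.2 ≤ ρ)) = big at *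
  generalize (L.filter fun p => decide (p.2 ≤ ρ)) ++ don = don' at *
  rw [add_one_mul] at j3
  refine Vt.ite (fun k => Vt.pure ⟨List.isEmpty_iff.1 k ▸ s1, f1, fun v => (s2 v).trans j2,
    by simp only [List.length_nil]; omega, Or.inl rfl⟩) fun k => ?_
  have b3 : 0 < tot big := by
    obtain ⟨p, hp⟩ := List.exists_mem_of_ne_nil big fun e => k (List.isEmpty_iff.2 e)
    have := (le_ms hp).trans (ms_le_tot _ _)
    have := (s5 p hp).2
    omega
  refine (solve_vt h hm hE h1 h2 hB hB' hn s1 (fun u v => ?_) s4 s5 b3 (by omega)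
    (le_trans (by omega) m0) H1).mono ?_
  · have := (f1 u v).trans (Nat.pow_le_pow_left hs 2)
    rw [sq] at this
    omega
  rintro (q | o) t2 a
  · obtain ⟨a1, a2, a3, a4, a5, a6⟩ := a
    have a7 : tot q.2.2.2 < tot big := Nat.lt_of_mul_lt_mul_left (a := 50 * H ^ 2) (by omega)
    refine ⟨⟨a1, fun p hp => a2 (q2 p hp), fun u v => ?_, by omega, fun v => ?_,
      geo_step hD (le_trans (Nat.cast_le.2 (by omega)) q6) a5,
      Nat.succ_le_succ (geo_bound hD q6 (by omega)), by rw [add_one_mul]; omega⟩,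
      show _ < tot rs by omega⟩
    · have := a3 u v
      have := q3 u v
      rw [add_one_mul]
      omega
    · have := a4 v
      have := s2 v
      rw [show 2 * (j + 1) * ρ = (2 * j + 1) * ρ + ρ by ring]
      omega
  · obtain ⟨f', R', d', r', Z⟩ := o
    obtain ⟨rfl, rfl, rfl, a4, a5, a6, a7, a8, a9⟩ := a
    exact ⟨a4, f1, fun v => (s2 v).trans j2, by dsimp only at a9 s7 ⊢; omega,
      Or.inr ⟨b3, a5, a6, a7, a8⟩⟩

/-- **Local flows.** -/
theorem loc : BOX False → LOC := by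
  rintro ⟨β, _, X, c, g, I, h⟩ σ _ nb hn
  obtain ⟨mcf, c', g', hm⟩ := exists_mcf
  refine ⟨locP X nb mcf, 5 * (c + (11 * c' + 20)),
    fun b => 30000 * (g (b + 4) + cmG g' (b + 4) + b + 3) ^ 5, impl_locP h hm hn, fun a => ?_,
    fun x y hxy => ?_, fun B b N st src ρ U h1 h2 h3 h4 h5 h6 h7 h8 h9 hB => ?_⟩
  · refine (Sub.const _).mul (Sub.pow ((((((h.sub (a + 4)).mono fun N _ => h.mono ?_).add
      ((cmG_sub hm (a + 4)).mono fun N _ => cmG_mono hm.mono ?_)).add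
      (((Sub.const a).mul Sub.size).add (Sub.const a))).add (Sub.const 3))) 5) <;> nlinarith
  · have := h.mono (Nat.add_le_add_right hxy 4)
    have := cmG_mono hm.mono (Nat.add_le_add_right hxy 4)
    exact Nat.mul_le_mul_left _ (Nat.pow_le_pow_left (by omega) _)
  have hB1 : 2 ^ (c * (b + 4 + 1)) ≤ B :=
    (Nat.pow_le_pow_right two_pos (by nlinarith [Nat.zero_le (c * b), Nat.zero_le (c' * b)])).trans hB
  have hB2 : 2 ^ ((11 * c' + 20) * (b + 4 + 1)) ≤ B :=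
    (Nat.pow_le_pow_right two_pos (by nlinarith [Nat.zero_le (c * b), Nat.zero_le (c' * b)])).trans hB
  have hB3 : 2 ^ (b + 4) ≤ B := (Nat.pow_le_pow_right two_pos (by nlinarith)).trans hB2
  have p4 : 2 ^ b < 2 ^ (b + 4) := Nat.pow_lt_pow_right one_lt_two (by omega)
  refine Vt.anti (d := b + 4) (Vt.num_bind (Nat.lt_two_pow_self.le.trans hB3)
    (Vt.tbind' ((Tri_pow2 _ _).2 ⟨hB3, Vt.tbind' ((Tri_mapP _ _ _).2 ?_)⟩))) (by omega)
  refine Vt.loopM (fun q t => ∃ j, LI N src b ρ (g (b + 4) + cmG g' (b + 4) + b + 3)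
    (tot src / ρ + src.length + 1) j q (src.length + t)) (fun q => tot q.2.2.2) ?_
    ⟨0, ⟨fun v hv => ?_, by simp, by simp, by simp [ms], by simp, fun _ => le_rfl, by simp [tot]⟩,
      fun p hp => List.mem_map_of_mem hp, by simp, by simp, by simp [ms],
      by simpa using (by exact_mod_cast h7 : (tot src : ℝ) ≤ 2 ^ b), by omega,
      by generalize tot src / ρ = x; simp; omega⟩
    (h7.trans_lt p4)
  · rintro q t ⟨j, hq⟩
    refine (round_vt h hm ⟨h1, h2, h3, h4⟩ h8 h9 hB1 hB2 p4 h7 le_rfl hq).mono ?_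
    rintro (q' | o) t' k
    · exact ⟨⟨j + 1, by simpa only [add_assoc] using k.1⟩, k.2⟩
    · simpa only [add_assoc, Sum.elim_inr, zero_add] using k
  · obtain ⟨p, hp, rfl⟩ := List.mem_map.1 hv
    exact h5 p hp

end Vale.Agent.P305LC
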