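import Vale.Agent.P305LC.Defs

/-!
# A box for arbitrary node names
-/

namespace Vale.Agent.P305LC

open Vale.Agent.P305E Vale.Agent.P305C Finset

theorem OG.fuel_inter (G : OG) (W : Finset ℕ) (h : ∀ e ∈ G.arcs, e.1 ∈ W ∧ e.2.1 ∈ W)
    (X : Finset ℕ) : G.fuel (X ∩ W) ≤ G.fuel X := by
  refine add_le_add (sum_le_sum_of_subset inter_subset_left) (le_of_eq ?_)
  unfold capIn
  refine congrArg List.sum (List.map_congr_left fun e he => ?_)
  simp only [mem_inter, (h e he).1, (h e he).2, and_true]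

/-- `G₀` is `G` with the nodes renamed by `l`; `r` is the inverse. -/
structure Ren (G G₀ : OG) (l r : ℕ → ℕ) (n : ℕ) : Prop where
  rng : G₀.V = range n
  V : G₀.V = G.V.image l
  slot : G₀.slot = G.slot.image l
  scn : G₀.scn = G.scn.image l
  sV : G.slot ⊆ G.V
  cV : G.scn ⊆ G.V
  inv : ∀ v ∈ G.V, r (l v) = v
  sup : ∀ v ∈ G.V, G₀.sup (l v) = G.sup v
  arcs : G₀.arcs = G.arcs.map fun e => (l e.1, l e.2.1, e.2.2)
  ends : ∀ e ∈ G.arcs, e.1 ∈ G.V ∧ e.2.1 ∈ G.V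

namespace Ren

variable {G G₀ : OG} {l r : ℕ → ℕ} {n : ℕ}

theorem inj (h : Ren G G₀ l r n) : Set.InjOn l G.V := fun a ha b hb e => by
  rw [← h.inv a ha, e, h.inv b hb]

theorem mem (h : Ren G G₀ l r n) {X : Finset ℕ} (hX : X ⊆ G.V) {v : ℕ} (hv : v ∈ G.V) :
    l v ∈ X.image l ↔ v ∈ X := by
  refine ⟨fun k => ?_, mem_image_of_mem l⟩
  obtain ⟨w, hw, e⟩ := mem_image.1 k
  rwa [← h.inj (hX hw) hv e]

theorem card (h : Ren G G₀ l r n) {X : Finset ℕ} (hX : X ⊆ G.V) : (X.image l).card = X.card :=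
  card_image_of_injOn (h.inj.mono hX)

theorem fuel (h : Ren G G₀ l r n) {X : Finset ℕ} (hX : X ⊆ G.V) :
    G₀.fuel (X.image l) = G.fuel X := by
  unfold OG.fuel capIn
  rw [sum_image (h.inj.mono hX), sum_congr rfl fun v hv => h.sup v (hX hv), h.arcs, List.map_map]
  refine congrArg _ (congrArg List.sum (List.map_congr_left fun e he => ?_))
  simp only [Function.comp, h.mem hX (h.ends e he).1, h.mem hX (h.ends e he).2]

theorem size (h : Ren G G₀ l r n) : G₀.size = G.size := by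
  unfold OG.size
  rw [h.V, h.scn, h.arcs, h.card h.cV, h.card Subset.rfl, List.length_map]

theorem Fuel (h : Ren G G₀ l r n) {γ ρ : ℕ} (k : G₀.Fuel γ ρ) : G.Fuel γ ρ := fun X => by
  have := k ((X ∩ G.V).image l)
  rw [h.fuel inter_subset_right, h.scn, ← image_inter_of_injOn _ _ (h.inj.mono (by
    rw [← coe_union]
    exact coe_subset.2 (union_subset h.cV inter_subset_right))), h.card
    (inter_subset_left.trans h.cV), inter_comm X, ← inter_assoc, inter_eq_left.2 h.cV] at this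
  exact this.trans (Nat.mul_le_mul_left _ (by rw [inter_comm]; exact G.fuel_inter _ h.ends X))

theorem Stall (h : Ren G G₀ l r n) {γ ρ : ℕ} (k : G₀.Stall γ ρ) : G.Stall γ ρ := by
  obtain ⟨X, h1, h2⟩ := k
  refine ⟨G.V.filter fun v => l v ∈ X, fun v hv => ?_, ?_⟩
  · obtain ⟨a, b⟩ := mem_sdiff.1 hv
    refine mem_filter.2 ⟨h.sV a, h1 (mem_sdiff.2 ⟨?_, ?_⟩)⟩
    · rw [h.slot]; exact mem_image_of_mem l a
    · rw [h.scn, h.mem h.cV (h.sV a)]; exact b
  · rw [← h.fuel (filter_subset _ _), ← filter_image (p := (· ∈ X)), ← h.V, filter_mem_eq_inter, inter_comm,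
      ← h.card h.sV, ← h.card Subset.rfl, ← h.slot, ← h.V]
    rw [h.arcs, List.length_map] at h2
    refine (G₀.fuel_inter _ (fun e he => ?_) X).trans h2
    rw [h.arcs] at he
    obtain ⟨x, hx, rfl⟩ := List.mem_map.1 he
    rw [h.V]
    exact ⟨mem_image_of_mem l (h.ends x hx).1, mem_image_of_mem l (h.ends x hx).2⟩

theorem node (h : Ren G G₀ l r n) {v : ℕ} (hv : v ∉ G.V) (a : ℕ) (sl : Bool) :
    Ren (G.node v a sl) (G₀.node n a sl) (Function.update l v n) (Function.update r n v)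
      (n + 1) := by
  have e1 : ∀ w ∈ G.V, Function.update l v n w = l w := fun w hw =>
    Function.update_of_ne (fun e : w = v => hv (e ▸ hw)) _ _
  have e2 : ∀ X ⊆ G.V, X.image (Function.update l v n) = X.image l := fun X hX =>
    image_congr fun w hw => e1 w (hX hw)
  have e3 : ∀ w ∈ G.V, l w ≠ n := fun w hw e => by
    have : l w ∈ G₀.V := h.V ▸ mem_image_of_mem l hw
    rw [h.rng, mem_range] at this
    omega
  refine ⟨?_, ?_, ?_, ?_, ?_, h.cV.trans (subset_insert _ _), fun w hw => ?_, fun w hw => ?_, ?_,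
    fun e he => ⟨mem_insert_of_mem (h.ends e he).1, mem_insert_of_mem (h.ends e he).2⟩⟩
  · simp only [OG.node, h.rng, range_add_one]
  · simp only [OG.node, image_insert, Function.update_self, e2 _ Subset.rfl, h.V]
  · cases sl <;> simp [OG.node, image_insert, e2 _ h.sV, h.slot]
  · simp only [OG.node, e2 _ h.cV, h.scn]
  · cases sl
    · exact h.sV.trans (subset_insert _ _)
    · exact insert_subset_insert _ h.sV
  · rcases mem_insert.1 hw with rfl | hw
    · simp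
    · rw [e1 w hw, Function.update_of_ne (e3 w hw), h.inv w hw]
  · rcases mem_insert.1 hw with rfl | hw
    · simp [OG.node]
    · simp only [OG.node]
      rw [e1 w hw, Function.update_of_ne (e3 w hw), Function.update_of_ne
        fun e : w = v => hv (e ▸ hw), h.sup w hw]
  · simp only [OG.node, h.arcs]
    exact List.map_congr_left fun e he => by rw [e1 _ (h.ends e he).1, e1 _ (h.ends e he).2]

theorem arc (h : Ren G G₀ l r n) {e : Ac} (h1 : e.1 ∈ G.V) (h2 : e.2.1 ∈ G.V) :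
    Ren (G.arc e) (G₀.arc (l e.1, l e.2.1, e.2.2)) l r n :=
  ⟨h.rng, h.V, h.slot, h.scn, h.sV, h.cV, h.inv, h.sup, by simp [OG.arc, h.arcs], fun x hx => by
    rcases List.mem_cons.1 hx with rfl | hx
    · exact ⟨h1, h2⟩
    · exact h.ends x hx⟩

theorem scan (h : Ren G G₀ l r n) {v : ℕ} (hv : v ∈ G.V) : Ren (G.scan v) (G₀.scan (l v)) l r n :=
  ⟨h.rng, h.V, h.slot, by simp [OG.scan, h.scn], h.sV, insert_subset hv h.cV, h.inv, h.sup,
    h.arcs, h.ends⟩

end Ren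

/-- The box with a table of names. -/
def nbx {β : Type} (X : Bx β) : Bx (β × Arr ℕ × Arr ℕ × ℕ) where
  init b ρ := do
    let s ← X.init b ρ
    pure (s, Arr.const 0, Arr.const 0, 0)
  node s v a sl := do
    let s' ← X.node s.1 s.2.2.2 a sl
    let n ← num (s.2.2.2 + 1)
    pure (s', s.2.1.set v s.2.2.2, s.2.2.1.set s.2.2.2 v, n)
  arc s e := do
    let s' ← X.arc s.1 (s.2.1.get e.1, s.2.1.get e.2.1, e.2.2)
    pure (s', s.2)
  next s := do
    let r ← X.next s.1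
    pure (r.1.elim none fun i => some (s.2.2.1.get i), r.2, s.2)

theorem pow_le_of {c b B : ℕ} (h : 2 ^ ((c + 1) * (b + 1)) ≤ B) :
    2 ^ (c * (b + 1)) ≤ B ∧ 2 ^ b ≤ B :=
  ⟨(Nat.pow_le_pow_right two_pos (by nlinarith)).trans h,
    (Nat.pow_le_pow_right two_pos (by nlinarith)).trans h⟩

/-- **Names do not matter.** -/
theorem named : BOX True → BOX False := by
  rintro ⟨β, _, X, c, g, I, h⟩
  refine ⟨_, _, nbx X, c + 1, g, fun B b ρ G s φ => 2 ^ b ≤ B ∧ ∃ G₀, I B b ρ G₀ s.1 φ ∧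
    Ren G G₀ s.2.1.get s.2.2.1.get s.2.2.2, ?_, ?_, ?_, ?_, h.sub, h.mono, ?_, ?_, ?_, ?_⟩
  · have := h.iinit
    simp only [nbx]
    fun_prop
  · have : Impl fun p : (β × Arr ℕ × Arr ℕ × ℕ) × ℕ × ℕ × Bool =>
        X.node p.1.1 p.1.2.2.2 p.2.2.1 p.2.2.2 :=
      h.inode.comp (g := fun p : (β × Arr ℕ × Arr ℕ × ℕ) × ℕ × ℕ × Bool =>
        (p.1.1, p.1.2.2.2, p.2.2.1, p.2.2.2)) (by fun_prop)
    simp only [nbx]
    fun_prop
  · have : Impl fun p : (β × Arr ℕ × Arr ℕ × ℕ) × Ac =>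
        X.arc p.1.1 (p.1.2.1.get p.2.1, p.1.2.1.get p.2.2.1, p.2.2.2) :=
      h.iarc.comp (g := fun p : (β × Arr ℕ × Arr ℕ × ℕ) × Ac =>
        (p.1.1, p.1.2.1.get p.2.1, p.1.2.1.get p.2.2.1, p.2.2.2)) (by fun_prop)
    simp only [nbx]
    fun_prop
  · have := h.inext
    simp only [nbx]
    fun_prop
  · intro B b ρ h1 h2 h3
    refine (h.init B b ρ h1 h2 (pow_le_of h3).1).bind fun s t ⟨φ, k1, k2⟩ =>
      Vt.pure ⟨φ, ⟨(pow_le_of h3).2, _, k1, ?_⟩, k2⟩
    constructor <;> simp [OG.empty]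
  · rintro B b ρ G s φ v a sl ⟨hB, G₀, k1, k2⟩ h1 h2 - h4
    have e : G₀.V.card = s.2.2.2 := by rw [k2.rng, card_range]
    have e' : G₀.V.card ≤ G₀.size := by unfold OG.size; omega
    have := k2.size
    refine (h.node B b ρ G₀ s.1 φ s.2.2.2 a sl k1 (by omega) (by simp [k2.rng]) (fun _ => e.symm)
      h4).bind fun s' t ⟨φ', k3, k4⟩ => Vt.num_bind (by omega) (Vt.pure ⟨φ', ⟨hB, _, k3, ?_⟩, k4⟩)
    exact k2.node h2 a sl
  · rintro B b ρ G s φ e ⟨hB, G₀, k1, k2⟩ h1 h2 h3 h4 h5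
    refine (h.arc B b ρ G₀ s.1 φ (s.2.1.get e.1, s.2.1.get e.2.1, e.2.2) k1 (k2.size ▸ h1)
      (k2.V ▸ mem_image_of_mem _ h2) (k2.V ▸ mem_image_of_mem _ h3) (fun x => h4 (k2.inj h2 h3 x)) h5).bind
      fun s' t ⟨φ', k3, k4⟩ => Vt.pure ⟨φ', ⟨hB, _, k3, k2.arc h2 h3⟩, k4⟩
  · rintro B b ρ G s φ ⟨hB, G₀, k1, k2⟩ h1
    refine (h.next B b ρ G₀ s.1 φ k1 (k2.size ▸ h1)).bind fun r t k => Vt.pure ?_
    obtain ⟨_ | i, s'⟩ := r
    · exact ⟨k2.Stall k.1, k.2⟩
    · obtain ⟨a1, a2, a3, φ', a4, a5⟩ := k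
      rw [k2.slot] at a1
      obtain ⟨v, hv, rfl⟩ := mem_image.1 a1
      have hV := k2.sV hv
      simp only [Option.elim, k2.inv v hV]
      exact ⟨hv, fun x => a2 (k2.scn ▸ mem_image_of_mem _ x), (k2.scan hV).Fuel a3, φ',
        ⟨hB, _, a4, k2.scan hV⟩, a5⟩

end Vale.Agent.P305LC
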