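import Vale.Agent.P305C.Vt

/-!
# The throttle box and local flows: definitions
-/

namespace Vale.Agent.P305LC

open Vale.Agent.P305E Vale.Agent.P305C Finset

/-- Arcs: tail, head, capacity. -/
abbrev Ac : Type := ℕ × ℕ × ℕ

/-- The capacity of the arcs that enter `X`. -/
def capIn (E : List Ac) (X : Finset ℕ) : ℕ :=
  (E.map fun e => if e.1 ∉ X ∧ e.2.1 ∈ X then e.2.2 else 0).sum

/-- An online graph: nodes, supplies, slots, arcs, scanned slots. -/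
structure OG where
  V : Finset ℕ
  sup : ℕ → ℕ
  slot : Finset ℕ
  arcs : List Ac
  scn : Finset ℕ

namespace OG

/-- The empty graph. -/
def empty : OG := ⟨∅, fun _ => 0, ∅, [], ∅⟩

/-- A new node `v` with supply `a`; `sl` tells whether it is a slot. -/
def node (G : OG) (v a : ℕ) (sl : Bool) : OG :=
  ⟨insert v G.V, Function.update G.sup v a, if sl then insert v G.slot else G.slot, G.arcs, G.scn⟩

/-- A new arc. -/
def arc (G : OG) (e : Ac) : OG := ⟨G.V, G.sup, G.slot, e :: G.arcs, G.scn⟩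

/-- A slot is scanned. -/
def scan (G : OG) (v : ℕ) : OG := ⟨G.V, G.sup, G.slot, G.arcs, insert v G.scn⟩

/-- The number of operations. -/
def size (G : OG) : ℕ := G.V.card + G.arcs.length + G.scn.card

/-- What can reach the set `X`. -/
def fuel (G : OG) (X : Finset ℕ) : ℕ := ∑ v ∈ X, G.sup v + capIn G.arcs X

/-- Scanned slots are paid. -/
def Fuel (G : OG) (γ ρ : ℕ) : Prop := ∀ X, ρ * (G.scn ∩ X).card ≤ γ * G.fuel X

/-- The slots that are not scanned lie behind a small cut. -/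
def Stall (G : OG) (γ ρ : ℕ) : Prop :=
  ∃ X, G.slot \ G.scn ⊆ X ∧ G.fuel X ≤ γ * ρ * (G.slot.card + G.V.card + G.arcs.length)

end OG

/-- The programs of a box. -/
structure Bx (β : Type) where
  init : ℕ → ℕ → M β
  node : β → ℕ → ℕ → Bool → M β
  arc : β → Ac → M β
  next : β → M (Option ℕ × β)

/-- The specification of a box. `I B b ρ G s φ`: the state `s` represents `G` and has the credit
`φ`. If `nm` holds, the nodes are named `0, 1, 2, …` in this order. -/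
structure BoxOK {β : Type} [Rep β] (nm : Prop) (X : Bx β) (c : ℕ) (g : ℕ → ℕ)
    (I : ℕ → ℕ → ℕ → OG → β → ℕ → Prop) : Prop where
  iinit : Impl fun p : ℕ × ℕ => X.init p.1 p.2
  inode : Impl fun p : β × ℕ × ℕ × Bool => X.node p.1 p.2.1 p.2.2.1 p.2.2.2
  iarc : Impl fun p : β × Ac => X.arc p.1 p.2
  inext : Impl X.next
  sub : ∀ a, Sub fun N => g (a * Nat.size N + a)
  mono : Monotone g
  init : ∀ B b ρ, 1 ≤ ρ → ρ ≤ 2 ^ b → 2 ^ (c * (b + 1)) ≤ B →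
    Vt b B (X.init b ρ) fun s t => ∃ φ, I B b ρ OG.empty s φ ∧ t + φ ≤ g b
  node : ∀ B b ρ G s φ v a sl, I B b ρ G s φ → G.size < 2 ^ b → v ∉ G.V → (nm → v = G.V.card) →
    a ≤ 2 ^ b → Vt b B (X.node s v a sl) fun s' t =>
      ∃ φ', I B b ρ (G.node v a sl) s' φ' ∧ t + φ' ≤ φ + g b
  arc : ∀ B b ρ G s φ e, I B b ρ G s φ → G.size < 2 ^ b → e.1 ∈ G.V → e.2.1 ∈ G.V → e.1 ≠ e.2.1 →
    e.2.2 ≤ 2 ^ b → Vt b B (X.arc s e) fun s' t =>
      ∃ φ', I B b ρ (G.arc e) s' φ' ∧ t + φ' ≤ φ + g b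
  next : ∀ B b ρ G s φ, I B b ρ G s φ → G.size < 2 ^ b → Vt b B (X.next s) fun r t =>
    r.1.elim (G.Stall (g b) ρ ∧ t ≤ φ + g b) fun v => v ∈ G.slot ∧ v ∉ G.scn ∧
      (G.scan v).Fuel (g b) ρ ∧ ∃ φ', I B b ρ (G.scan v) r.2 φ' ∧ t + φ' ≤ φ + g b

/-- There is a box (what the engine has to deliver, with `nm := True`). -/
def BOX (nm : Prop) : Prop :=
  ∃ (β : Type) (_ : Rep β) (X : Bx β) (c : ℕ) (g : ℕ → ℕ) (I : ℕ → ℕ → ℕ → OG → β → ℕ → Prop),
    BoxOK nm X c g I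

/-! ### Local flows -/

/-- The mass at `v` in a list of pairs (node, amount). -/
def ms (L : List (ℕ × ℕ)) (v : ℕ) : ℕ := (L.map fun p => if p.1 = v then p.2 else 0).sum

/-- The total mass. -/
def tot (L : List (ℕ × ℕ)) : ℕ := (L.map Prod.snd).sum

/-- An implicit network. -/
structure Nw where
  nd : ℕ → Prop
  adj : ℕ → List ℕ
  cap : ℕ → ℕ → ℕ

/-- What the oracle returns: neighbour, capacity to it, capacity from it. -/
def Nw.nb (N : Nw) (v : ℕ) : List Ac := (N.adj v).map fun w => (w, N.cap v w, N.cap w v)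

/-- Simple, of degree at most eight; the name `0` is not used. -/
structure Nw.OK (N : Nw) (b : ℕ) : Prop where
  zero : ¬ N.nd 0
  cl : ∀ v, N.nd v → ∀ w ∈ N.adj v, N.nd w ∧ v ∈ N.adj w ∧ w ≠ v ∧ N.cap v w ≤ 8 ^ b
  nodup : ∀ v, N.nd v → (N.adj v).Nodup ∧ (N.adj v).length ≤ 8

/-- The residual capacity after `f u v` was pushed from `u` to `v`. -/
def Nw.res (N : Nw) (f : ℕ → ℕ → ℕ) (u v : ℕ) : ℕ := N.cap u v + f v u - f u v

/-- The value of the cut `Z`. -/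
def Nw.val (N : Nw) (f : ℕ → ℕ → ℕ) (ρ : ℕ) (r : List (ℕ × ℕ)) (Z : Finset ℕ) : ℕ :=
  ∑ u ∈ Z, ((N.adj u).map fun v => if v ∈ Z then 0 else N.res f u v).sum + ρ * Z.card +
    (r.map fun p => if p.1 ∈ Z then 0 else p.2).sum

/-- The result: pushed amounts, touched nodes, donations, remaining sources, cut. -/
abbrev Out : Type := Arr (Arr ℕ) × List ℕ × List (ℕ × ℕ) × List (ℕ × ℕ) × List ℕ

/-- A flow `f` on the nodes `R` that sends `src` to the donations `don`, up to the rest `r`. -/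
structure Flw (N : Nw) (src : List (ℕ × ℕ)) (f : ℕ → ℕ → ℕ) (R : List ℕ)
    (don r : List (ℕ × ℕ)) : Prop where
  nd : ∀ v ∈ R, N.nd v
  supp : ∀ u v, f u v ≠ 0 → u ∈ R ∧ v ∈ R ∧ v ∈ N.adj u
  cap : ∀ u v, f u v ≤ N.cap u v + f v u
  cons : ∀ v, ms src v + ((N.adj v).map fun w => f w v).sum =
    ms r v + ms don v + ((N.adj v).map fun w => f v w).sum
  donR : ∀ p ∈ don, p.1 ∈ R
  rest : ∀ v, ms r v ≤ ms src v
  sum : tot r + tot don = tot src

/-- The result of the local flow computation. -/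
structure LocRes (N : Nw) (src : List (ℕ × ℕ)) (ρ κ : ℕ) (o : Out) (t : ℕ) : Prop where
  flw : Flw N src (fun u v => (o.1.get u).get v) o.2.1 o.2.2.1 o.2.2.2.1
  le : ∀ u v, (o.1.get u).get v ≤ tot src ^ 2
  don : ∀ v, ms o.2.2.1 v ≤ κ * ρ
  time : o.2.1.length + o.2.2.1.length + o.2.2.2.1.length + o.2.2.2.2.length + t ≤
    (tot src / ρ + src.length + 1) * κ
  fin : o.2.2.2.1 = [] ∨ (0 < tot o.2.2.2.1 ∧ o.2.2.2.2.Nodup ∧ (∀ v ∈ o.2.2.2.2, v ∈ o.2.1) ∧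
    2 * N.val (fun u v => (o.1.get u).get v) ρ o.2.2.2.1 o.2.2.2.2.toFinset ≤ tot o.2.2.2.1 ∧
    ∀ Z ⊆ o.2.2.2.2.toFinset,
      N.val (fun u v => (o.1.get u).get v) ρ o.2.2.2.1 o.2.2.2.2.toFinset ≤
        N.val (fun u v => (o.1.get u).get v) ρ o.2.2.2.1 Z)

/-- The specification of `loc b st src ρ`; the oracle `nb st` describes a network with at most
`2 ^ b` nodes. -/
structure LocOK {σ : Type} [Rep σ] (nb : σ → ℕ → M (List Ac))
    (loc : ℕ → σ → List (ℕ × ℕ) → ℕ → M Out) (c : ℕ) (g : ℕ → ℕ) : Prop where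
  impl : Impl fun p : ℕ × σ × List (ℕ × ℕ) × ℕ => loc p.1 p.2.1 p.2.2.1 p.2.2.2
  sub : ∀ a, Sub fun N => g (a * Nat.size N + a)
  mono : Monotone g
  spec : ∀ (B b : ℕ) (N : Nw) (st : σ) (src : List (ℕ × ℕ)) (ρ : ℕ) (U : Finset ℕ), N.OK b →
    (∀ v, N.nd v → v ∈ U) → U.card ≤ 2 ^ b →
    (∀ v, N.nd v → Tri ⟨B, true⟩ (nb st v) fun l t => l = N.nb v ∧ t ≤ b + 1) →
    (∀ p ∈ src, N.nd p.1) → src.length ≤ 2 ^ b → tot src ≤ 2 ^ b → 1 ≤ ρ → ρ ≤ 2 ^ b →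
    2 ^ (c * (b + 1)) ≤ B → Vt b B (loc b st src ρ) (LocRes N src ρ (g b))

/-- **The block LOC.** -/
def LOC : Prop :=
  ∀ (σ : Type) [Rep σ] (nb : σ → ℕ → M (List Ac)), (Impl fun p : σ × ℕ => nb p.1 p.2) →
    ∃ loc c g, LocOK nb loc c g

end Vale.Agent.P305LC
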