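import Vale.Agent.P305LC.Defs

/-!
# Exploration of an implicit network with a box
-/

namespace Vale.Agent.P305LC

open Vale.Agent.P305E Vale.Agent.P305C Finset

variable {β σ : Type}

theorem ms_eq_zero {L : List (ℕ × ℕ)} {v : ℕ} (h : ∀ p ∈ L, p.1 ≠ v) : ms L v = 0 :=
  List.sum_eq_zero fun x hx => by
    obtain ⟨p, hp, rfl⟩ := List.mem_map.1 hx
    exact if_neg (h p hp)

theorem ms_append (L L' : List (ℕ × ℕ)) (v : ℕ) : ms (L ++ L') v = ms L v + ms L' v := by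
  simp [ms]

theorem tot_append (L L' : List (ℕ × ℕ)) : tot (L ++ L') = tot L + tot L' := by simp [tot]

/-- Sums over the fibres of a key. -/
theorem sum_key {ι : Type} (r : List ι) (k x : ι → ℕ) (W : Finset ℕ) :
    ∑ w ∈ W, (r.map fun p => if k p = w then x p else 0).sum =
      (r.map fun p => if k p ∈ W then x p else 0).sum := by
  induction r with
  | nil => simp
  | cons p r ih => simp only [List.map_cons, List.sum_cons, sum_add_distrib, ih, sum_ite_eq]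

/-- The graph that is known to the box. -/
def gr (big : List (ℕ × ℕ)) (V : List ℕ) (E : List Ac) (S : Finset ℕ) : OG :=
  ⟨V.toFinset, ms big, V.toFinset, E, S⟩

/-- The list of nodes. -/
structure XI (N : Nw) (big : List (ℕ × ℕ)) (V : List ℕ) : Prop where
  nodup : V.Nodup
  nd : ∀ v ∈ V, N.nd v
  key : ∀ p ∈ big, p.1 ∈ V

/-- The explored part: nodes `V`, arcs `E`, scanned nodes `S`. -/
structure XR (N : Nw) (rc : ℕ → ℕ → ℕ) (big : List (ℕ × ℕ)) (V : List ℕ) (E : List Ac)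
    (S : Finset ℕ) : Prop extends XI N big V where
  sV : ∀ v ∈ S, v ∈ V
  cl : ∀ u ∈ S, ∀ w ∈ N.adj u, w ∈ V
  sum : ∀ φ : Ac → ℕ, (E.map φ).sum = ∑ u ∈ S, ((N.adj u).map fun w => φ (u, w, rc u w)).sum
  len : V.length ≤ big.length + 8 * S.card

theorem XR.lenE {N : Nw} {rc : ℕ → ℕ → ℕ} {big : List (ℕ × ℕ)} {V : List ℕ} {E : List Ac}
    {S : Finset ℕ} (h : XR N rc big V E S) {b : ℕ} (hN : N.OK b) : E.length ≤ 8 * S.card := by
  have := h.sum fun _ => 1
  simp only [List.map_const', List.sum_replicate, smul_eq_mul, mul_one] at this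
  rw [this, mul_comm]
  exact sum_le_card_nsmul _ _ _ fun u hu => (hN.nodup u (h.nd u (h.sV u hu))).2

theorem XR.mem {N : Nw} {rc : ℕ → ℕ → ℕ} {big : List (ℕ × ℕ)} {V : List ℕ} {E : List Ac}
    {S : Finset ℕ} (h : XR N rc big V E S) {e : Ac} (he : e ∈ E) :
    e.1 ∈ S ∧ e.2.1 ∈ N.adj e.1 ∧ e.2.2 = rc e.1 e.2.1 := by
  have := h.sum fun e => if e.1 ∈ S ∧ e.2.1 ∈ N.adj e.1 ∧ e.2.2 = rc e.1 e.2.1 then 0 else 1
  rw [sum_eq_zero fun u hu => List.sum_eq_zero fun x hx => by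
    obtain ⟨w, hw, rfl⟩ := List.mem_map.1 hx
    exact if_pos ⟨hu, hw, rfl⟩, List.sum_eq_zero_iff] at this
  by_contra k
  simpa [k] using this _ (List.mem_map_of_mem he)

/-- What is known about the network and its oracle. -/
structure Env (N : Nw) (b B : ℕ) (U : Finset ℕ) (nb : ℕ → M (List Ac)) : Prop where
  ok : N.OK b
  mem : ∀ v, N.nd v → v ∈ U
  card : U.card ≤ 2 ^ b
  nb : ∀ v, N.nd v → Tri ⟨B, true⟩ (nb v) fun l t => l = N.nb v ∧ t ≤ b + 1

theorem Env.le {N : Nw} {b B : ℕ} {U : Finset ℕ} {nb : ℕ → M (List Ac)} (h : Env N b B U nb)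
    {S : Finset ℕ} (hS : ∀ v ∈ S, N.nd v) : S.card ≤ 2 ^ b :=
  (card_le_card fun v hv => h.mem v (hS v hv)).trans h.card

/-- One arc of a scanned node. -/
def xarc (X : Bx β) (f : Arr (Arr ℕ)) (s v : ℕ) (q : β × List ℕ × Arr Bool × List Ac) (e : Ac) :
    M (β × List ℕ × Arr Bool × List Ac) := do
  let q' ← (if q.2.2.1.get e.1 = true then pure (q.1, q.2.1, q.2.2.1) else do
    let y ← X.node q.1 e.1 0 true
    pure (y, e.1 :: q.2.1, q.2.2.1.set e.1 true))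
  let y ← X.arc q'.1 (v, e.1, min s (e.2.1 + (f.get e.1).get v - (f.get v).get e.1))
  pure (y, q'.2.1, q'.2.2,
    (v, e.1, min s (e.2.1 + (f.get e.1).get v - (f.get v).get e.1)) :: q.2.2.2)

/-- One node is scanned. -/
def xstep (X : Bx β) (nb : σ → ℕ → M (List Ac)) (st : σ) (f : Arr (Arr ℕ)) (s : ℕ)
    (q : (β × List ℕ × Arr Bool × List Ac) × Arr Bool) :
    M (((β × List ℕ × Arr Bool × List Ac) × Arr Bool) ⊕ (List ℕ × Arr Bool × List Ac)) := do
  let r ← X.next q.1.1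
  r.1.elim (pure (Sum.inr (q.1.2.1, q.2, q.1.2.2.2))) fun v => do
    let l ← nb st v
    let q' ← foldM (xarc X f s v) (r.2, q.1.2) l
    pure (Sum.inl (q', q.2.set v true))

/-- The exploration. -/
def explore (X : Bx β) (nb : σ → ℕ → M (List Ac)) (st : σ) (b ρ n : ℕ) (f : Arr (Arr ℕ))
    (s : ℕ) (big : List (ℕ × ℕ)) : M (List ℕ × Arr Bool × List Ac) := do
  let x ← X.init b ρ
  let q ← foldM (fun (q : β × List ℕ × Arr Bool) (p : ℕ × ℕ) => do
    let y ← X.node q.1 p.1 p.2 true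
    pure (y, p.1 :: q.2.1, q.2.2.set p.1 true)) (x, [], Arr.const false) big
  loopM (xstep X nb st f s) n ((q.1, q.2.1, q.2.2, []), Arr.const false)

variable [Rep β] {X : Bx β} {c : ℕ} {g : ℕ → ℕ} {I : ℕ → ℕ → ℕ → OG → β → ℕ → Prop}

theorem impl_explore [Rep σ] (h : BoxOK False X c g I) {nb : σ → ℕ → M (List Ac)}
    (hn : Impl fun p : σ × ℕ => nb p.1 p.2) :
    Impl fun p : σ × ℕ × ℕ × ℕ × Arr (Arr ℕ) × ℕ × List (ℕ × ℕ) =>
      explore X nb p.1 p.2.1 p.2.2.1 p.2.2.2.1 p.2.2.2.2.1 p.2.2.2.2.2.1 p.2.2.2.2.2.2 := by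
  have h1 := h.iinit
  have h2 := h.inode
  have h3 := h.iarc
  have h4 := h.inext
  have h5 : Impl fun p : Arr (Arr ℕ) × ℕ × ℕ × (β × List ℕ × Arr Bool × List Ac) × Ac =>
      xarc X p.1 p.2.1 p.2.2.1 p.2.2.2.1 p.2.2.2.2 := by
    unfold xarc
    fun_prop
  have h6 : Impl fun p : σ × Arr (Arr ℕ) × ℕ × (β × List ℕ × Arr Bool × List Ac) × Arr Bool =>
      xstep X nb p.1 p.2.1 p.2.2.1 p.2.2.2 := by
    unfold xstep
    fun_prop
  unfold explore
  fun_prop

variable {N : Nw} {b B ρ s : ℕ} {U : Finset ℕ} {nb : σ → ℕ → M (List Ac)} {st : σ}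
  {f : Arr (Arr ℕ)} {big : List (ℕ × ℕ)}

/-- The capacities that the box sees. -/
def rcap (N : Nw) (f : Arr (Arr ℕ)) (s u w : ℕ) : ℕ :=
  min s (N.res (fun u v => (f.get u).get v) u w)

theorem pres_cons {P : Arr Bool} {V : List ℕ} (h : ∀ v, P.get v = true ↔ v ∈ V) (w v : ℕ) :
    (P.set w true).get v = true ↔ v ∈ w :: V := by
  rw [Arr.get_set, List.mem_cons, ← h]
  split_ifs with k <;> simp [k]

theorem xarc_vt (h : BoxOK False X c g I) (hE : Env N b B U (nb st)) (hs : s ≤ 2 ^ b) {x : β}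
    {V : List ℕ} {P : Arr Bool} {E : List Ac} {S : Finset ℕ} {φ v w : ℕ} (hV : XI N big V)
    (hP : ∀ v, P.get v = true ↔ v ∈ V) (hI : I B (b + 4) ρ (gr big V E S) x φ) (hv : v ∈ V)
    (hw : w ∈ N.adj v) (hl : E.length + S.card ≤ 9 * 2 ^ b) :
    Vt (b + 4) B (xarc X f s v (x, V, P, E) (w, N.cap v w, N.cap w v)) fun q t =>
      (∃ φ', I B (b + 4) ρ (gr big q.2.1 q.2.2.2 S) q.1 φ' ∧ t + φ' ≤ φ + 2 * g (b + 4)) ∧
      XI N big q.2.1 ∧ (∀ v, q.2.2.1.get v = true ↔ v ∈ q.2.1) ∧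
      q.2.2.2 = (v, w, rcap N f s v w) :: E ∧ V ⊆ q.2.1 ∧ w ∈ q.2.1 ∧
      q.2.1.length ≤ V.length + 1 := by
  have p4 : 2 ^ (b + 4) = 16 * 2 ^ b := by ring
  have sz : ∀ V', XI N big V' → (gr big V' E S).size < 2 ^ (b + 4) := fun V' h' => by
    have := hE.le (S := V'.toFinset) fun v hv => h'.nd v (List.mem_toFinset.1 hv)
    have := Nat.two_pow_pos b
    simp only [OG.size, gr]
    omega
  obtain ⟨n1, -, n2, -⟩ := hE.ok.cl v (hV.nd v hv) w hw
  refine Vt.bind (P := fun q t => (∃ φ', I B (b + 4) ρ (gr big q.2.1 E S) q.1 φ' ∧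
    t + φ' ≤ φ + g (b + 4)) ∧ XI N big q.2.1 ∧ (∀ v, q.2.2.get v = true ↔ v ∈ q.2.1) ∧
    V ⊆ q.2.1 ∧ w ∈ q.2.1 ∧ q.2.1.length ≤ V.length + 1) (Vt.ite (fun k => ?_) fun k => ?_) ?_
  · exact Vt.pure ⟨⟨φ, hI, by omega⟩, hV, hP, List.Subset.refl _, (hP w).1 k, Nat.le_succ _⟩
  · have k' : w ∉ V := fun a => k ((hP w).2 a)
    refine (h.node B _ ρ _ x φ w 0 true hI (sz V hV) (by simpa [gr] using k') False.elim
      (Nat.zero_le _)).bind fun y t ⟨φ', a1, a2⟩ => Vt.pure ⟨⟨φ', ?_, a2⟩,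
        ⟨List.nodup_cons.2 ⟨k', hV.nodup⟩, List.forall_mem_cons.2 ⟨n1, hV.nd⟩,
          fun p hp => List.mem_cons_of_mem _ (hV.key p hp)⟩, pres_cons hP w,
        List.subset_cons_self _ _, List.mem_cons_self, le_rfl⟩
    have e : Function.update (ms big) w 0 = ms big := Function.update_eq_self_iff.2
      (ms_eq_zero fun p hp (e : p.1 = w) => k' (e ▸ hV.key p hp)).symm
    simpa only [gr, OG.node, e, if_true, List.toFinset_cons] using a1
  · rintro q t ⟨⟨φ', a1, a2⟩, a3, a4, a5, a6, a7⟩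
    refine (h.arc B _ ρ _ q.1 φ' (v, w, rcap N f s v w) a1 (sz _ a3)
      (List.mem_toFinset.2 (a5 hv)) (List.mem_toFinset.2 a6) n2.symm
      (((min_le_left _ _).trans hs).trans (by omega))).bind fun y t' ⟨φ'', k1, k2⟩ =>
      Vt.pure ⟨⟨φ'', k1, by omega⟩, a3, a4, rfl, a5, a6, a7⟩

theorem fuel_all {rc : ℕ → ℕ → ℕ} {V : List ℕ} {E : List Ac} {S : Finset ℕ}
    (h : XR N rc big V E S) : (gr big V E S).fuel V.toFinset = tot big := by
  have : capIn E V.toFinset = 0 := List.sum_eq_zero fun x hx => by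
    obtain ⟨e, he, rfl⟩ := List.mem_map.1 hx
    exact if_neg fun k => k.1 (List.mem_toFinset.2 (h.sV _ (h.mem he).1))
  simp only [OG.fuel, gr, this, add_zero, ms, sum_key, tot]
  exact congrArg List.sum (List.map_congr_left fun p hp =>
    if_pos (List.mem_toFinset.2 (h.key p hp)))

/-- The invariant of the exploration. -/
def XL (I : OG → β → ℕ → Prop) (N : Nw) (rc : ℕ → ℕ → ℕ) (big : List (ℕ × ℕ)) (γ ρ κ : ℕ)
    (S : Finset ℕ) (q : (β × List ℕ × Arr Bool × List Ac) × Arr Bool) (t : ℕ) : Prop :=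
  (∀ v, q.2.get v = true ↔ v ∈ S) ∧ XR N rc big q.1.2.1 q.1.2.2.2 S ∧
    (∀ v, q.1.2.2.1.get v = true ↔ v ∈ q.1.2.1) ∧ (gr big q.1.2.1 q.1.2.2.2 S).Fuel γ ρ ∧
    ∃ φ, I (gr big q.1.2.1 q.1.2.2.2 S) q.1.1 φ ∧ t + φ ≤ (big.length + 17 * S.card + 1) * κ

/-- The result of the exploration. -/
def XO (N : Nw) (rc : ℕ → ℕ → ℕ) (big : List (ℕ × ℕ)) (γ ρ κ : ℕ)
    (o : List ℕ × Arr Bool × List Ac) (t : ℕ) : Prop :=
  ∃ S : Finset ℕ, (∀ v, o.2.1.get v = true ↔ v ∈ S) ∧ XR N rc big o.1 o.2.2 S ∧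
    (gr big o.1 o.2.2 S).Fuel γ ρ ∧ (gr big o.1 o.2.2 S).Stall γ ρ ∧
    t ≤ (big.length + 17 * S.card + 2) * κ

theorem xstep_vt (h : BoxOK False X c g I) (hE : Env N b B U (nb st)) (hs : s ≤ 2 ^ b) {S : Finset ℕ}
    {q : (β × List ℕ × Arr Bool × List Ac) × Arr Bool} {t : ℕ}
    (hq : XL (I B (b + 4) ρ) N (rcap N f s) big (g (b + 4)) ρ (g (b + 4) + b + 2) S q t) :
    Vt (b + 4) B (xstep X nb st f s q) fun r t' => r.elim
      (fun q' => ∃ v ∉ S, XL (I B (b + 4) ρ) N (rcap N f s) big (g (b + 4)) ρ (g (b + 4) + b + 2)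
        (insert v S) q' (t + t' + 1))
      fun o => XO N (rcap N f s) big (g (b + 4)) ρ (g (b + 4) + b + 2) o (t + t') := by
  obtain ⟨⟨x, V, P, E⟩, A⟩ := q
  obtain ⟨h1, h2, h3, h4, φ, h5, h6⟩ := hq
  dsimp only at h1 h2 h3 h4 h5 h6
  have l1 := h2.lenE hE.ok
  have l2 := hE.le (S := V.toFinset) fun v hv => h2.nd v (List.mem_toFinset.1 hv)
  have l3 := hE.le (S := S) fun v hv => h2.nd v (h2.sV v hv)
  have l4 := Nat.two_pow_pos b
  have p4 : 2 ^ (b + 4) = 16 * 2 ^ b := by ring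
  refine (h.next B _ ρ _ x φ h5 (by simp only [OG.size, gr]; omega)).bind fun r t1 k => ?_
  obtain ⟨_ | v, y⟩ := r
  · exact Vt.pure ⟨S, h1, h2, h4, k.1, by have := k.2; nlinarith⟩
  obtain ⟨k1, k2, k3, φ1, k4, k5⟩ := k
  have hv : v ∈ V := List.mem_toFinset.1 k1
  have hS : v ∉ S := k2
  have l5 := hE.le (S := insert v S) fun u hu => by
    rcases mem_insert.1 hu with rfl | hu
    · exact h2.nd _ hv
    · exact h2.nd u (h2.sV u hu)
  have l6 := card_insert_of_notMem hS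
  have l7 : (N.nb v).length ≤ 8 := by
    simpa only [Nw.nb, List.length_map] using (hE.ok.nodup v (h2.nd v hv)).2
  refine Vt.tbind (hE.nb v (h2.nd v hv)) ?_
  rintro _ t2 ⟨rfl, ht2⟩
  refine (Vt.foldM (s := (y, V, P, E)) (fun pre (q : β × List ℕ × Arr Bool × List Ac) t =>
    (∃ φ', I B (b + 4) ρ (gr big q.2.1 q.2.2.2 (insert v S)) q.1 φ' ∧
    t + φ' ≤ φ1 + pre.length * (2 * g (b + 4) + 1)) ∧ XI N big q.2.1 ∧
    (∀ v, q.2.2.1.get v = true ↔ v ∈ q.2.1) ∧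
    q.2.2.2 = (pre.map fun e => (v, e.1, rcap N f s v e.1)).reverse ++ E ∧ V ⊆ q.2.1 ∧
    (∀ e ∈ pre, e.1 ∈ q.2.1) ∧ q.2.1.length ≤ V.length + pre.length)
    ⟨⟨φ1, k4, by simp⟩, h2.toXI, h3, rfl, List.Subset.refl _, by simp, le_rfl⟩ ?_).bind ?_
  · rintro pre e rest ⟨x', V', P', E'⟩ t3 he ⟨⟨φ', a1, a2⟩, a3, a4, a5, a6, a7, a8⟩
    dsimp only at a1 a2 a3 a4 a5 a6 a7 a8
    have a9 : e ∈ N.nb v := by simp [he]
    obtain ⟨w, hw, rfl⟩ := List.mem_map.1 a9
    have a10 := congrArg List.length he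
    have a11 := congrArg List.length a5
    simp only [List.length_append, List.length_cons, List.length_reverse, List.length_map]
      at a10 a11
    refine (xarc_vt h hE hs a3 a4 a1 (a6 hv) hw (by omega)).mono ?_
    rintro q t4 ⟨⟨φ'', b1, b2⟩, b3, b4, b5, b6, b7, b8⟩
    refine ⟨⟨φ'', b1, ?_⟩, b3, b4, ?_, List.Subset.trans a6 b6, ?_, ?_⟩
    · rw [List.length_append, List.length_singleton, add_one_mul]
      omega
    · rw [b5, a5]
      simp
    · intro e he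
      rcases List.mem_append.1 he with he | he
      · exact b6 (a7 e he)
      · rw [List.mem_singleton.1 he]
        exact b7
    · rw [List.length_append, List.length_singleton]
      omega
  · rintro q t3 ⟨⟨φ', a1, a2⟩, a3, a4, a5, a6, a7, a8⟩
    refine Vt.pure ⟨v, hS, fun u => ?_, ⟨a3, fun u hu => ?_, fun u hu w hw => ?_, fun ψ => ?_, ?_⟩,
      a4, fun Y => (k3 Y).trans (Nat.mul_le_mul_left _ ?_), φ', a1, ?_⟩
    · rw [Arr.get_set, mem_insert, ← h1]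
      split_ifs with k <;> simp [k]
    · rcases mem_insert.1 hu with rfl | hu
      · exact a6 hv
      · exact a6 (h2.sV u hu)
    · rcases mem_insert.1 hu with rfl | hu
      · exact a7 _ (List.mem_map_of_mem (f := fun w => (w, N.cap u w, N.cap w u)) hw)
      · exact a6 (h2.cl u hu w hw)
    · rw [sum_insert hS, ← h2.sum, a5]
      simp [Nw.nb, List.sum_reverse, Function.comp_def]
    · have := h2.len
      dsimp only
      omega
    · simp only [OG.fuel, gr, OG.scan, capIn, a5, List.map_append, List.sum_append]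
      omega
    · have := Nat.mul_le_mul_right (2 * g (b + 4) + 1) l7
      rw [l6]
      nlinarith

theorem explore_vt (h : BoxOK False X c g I) (hE : Env N b B U (nb st)) (hs : s ≤ 2 ^ b) (h1 : 1 ≤ ρ)
    (h2 : ρ ≤ 2 ^ b) (hB : 2 ^ (c * (b + 4 + 1)) ≤ B) (hn : (big.map Prod.fst).Nodup)
    (hb : ∀ p ∈ big, N.nd p.1 ∧ p.2 ≤ 2 ^ b) {n : ℕ} (hf : 2 ^ b < n) :
    Vt (b + 4) B (explore X nb st (b + 4) ρ n f s big)
      (XO N (rcap N f s) big (g (b + 4)) ρ (g (b + 4) + b + 2)) := by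
  have l4 := Nat.two_pow_pos b
  have p4 : 2 ^ (b + 4) = 16 * 2 ^ b := by ring
  refine (h.init B _ ρ h1 (by omega) hB).bind fun x t0 ⟨φ0, k1, k2⟩ => ?_
  refine (Vt.foldM (s := (x, [], Arr.const false))
    (fun pre (q : β × List ℕ × Arr Bool) t => q.2.1 = (pre.map Prod.fst).reverse ∧
    (∀ v, q.2.2.get v = true ↔ v ∈ q.2.1) ∧ ∃ φ, I B (b + 4) ρ (gr pre q.2.1 [] ∅) q.1 φ ∧
      t + φ ≤ φ0 + pre.length * (g (b + 4) + 1)) ⟨rfl, by simp, φ0, k1, by simp⟩ ?_).bind ?_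
  · rintro pre p rest ⟨y, V, P⟩ t e ⟨a1, a2, φ, a3, a4⟩
    obtain rfl : V = _ := a1
    have a5 : ∀ x ∈ pre, x.1 ≠ p.1 := fun x hx k => by
      rw [e, List.map_append, List.nodup_append] at hn
      exact hn.2.2 _ (List.mem_map_of_mem hx) _ (List.mem_map_of_mem List.mem_cons_self) k
    have a6 := hE.le (S := (pre.map Prod.fst).reverse.toFinset) fun v hv => by
      obtain ⟨x, hx, rfl⟩ := List.mem_map.1 (List.mem_reverse.1 (List.mem_toFinset.1 hv))
      exact (hb x (by simp [e, hx])).1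
    refine (h.node B _ ρ _ y φ p.1 p.2 true a3 (by simp only [OG.size, gr]; simp at a6 ⊢; omega)
      (by simpa [gr] using fun z (hz : (p.1, z) ∈ pre) => a5 _ hz rfl) False.elim
      ((hb p (by simp [e])).2.trans (by omega))).bind fun y' t' ⟨φ', b1, b2⟩ =>
        Vt.pure ⟨by simp, pres_cons a2 _, φ', ?_, ?_⟩
    · have e' : Function.update (ms pre) p.1 p.2 = ms (pre ++ [p]) := funext fun v => by
        rw [ms_append, Function.update_apply]
        split_ifs with k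
        · rw [k, ms_eq_zero a5]; simp [ms]
        · simp [ms, Ne.symm k]
      simpa only [gr, OG.node, e', if_true, List.toFinset_cons] using b1
    · rw [List.length_append, List.length_singleton, add_one_mul]
      omega
  · rintro q t ⟨a1, a2, φ, a3, a4⟩
    refine Vt.loopM (fun q' t' => ∃ S, XL (I B (b + 4) ρ) N (rcap N f s) big (g (b + 4)) ρ
      (g (b + 4) + b + 2) S q' (t0 + (t + t'))) (fun q' => (U.filter fun v => q'.2.get v = false).card)
      ?_ ⟨∅, by simp, ⟨⟨a1 ▸ List.nodup_reverse.2 hn, fun v hv => ?_, fun p hp => ?_⟩, by simp,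
        by simp, by simp, by simp [a1]⟩, a2, fun Y => by simp [gr], φ, a3, by simp; nlinarith⟩
      (((card_filter_le _ _).trans hE.card).trans_lt hf)
    · rintro q' t' ⟨S, hq⟩
      refine (xstep_vt h hE hs hq).mono ?_
      rintro (q'' | o) t'' k
      · obtain ⟨v, k1, k2⟩ := k
        refine ⟨⟨_, by simpa only [add_assoc] using k2⟩, card_lt_card ⟨fun u hu => ?_, fun k => ?_⟩⟩
        · rw [mem_filter, ← Bool.not_eq_true] at hu ⊢
          exact ⟨hu.1, fun a => hu.2 ((k2.1 u).2 (mem_insert_of_mem ((hq.1 u).1 a)))⟩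
        · have := k (mem_filter.2 ⟨hE.mem v (k2.2.1.nd v (k2.2.1.sV v (mem_insert_self _ _))),
            Bool.eq_false_iff.2 fun a => k1 ((hq.1 v).1 a)⟩)
          rw [mem_filter, (k2.1 v).2 (mem_insert_self _ _)] at this
          simp at this
      · simpa only [add_assoc, Sum.elim_inr] using k
    · rw [a1] at hv
      obtain ⟨x, hx, rfl⟩ := List.mem_map.1 (List.mem_reverse.1 hv)
      exact (hb x hx).1
    · rw [a1]
      exact List.mem_reverse.2 (List.mem_map_of_mem hp)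

end Vale.Agent.P305LC
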