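import Vale.Agent.P305LC.Stat

/-!
# Flows: normal forms, donations, augmentations
-/

namespace Vale.Agent.P305LC

open Vale.Agent.P305E Vale.Agent.P305C Finset

variable {N : Nw} {src big don L : List (ℕ × ℕ)} {V R : List ℕ} {E : List Ac} {S : Finset ℕ}
  {b ρ s : ℕ} {F : ℕ → ℕ → ℕ}

theorem Flw.congr (h : Flw N src F R don big) (e : ∀ v, ms L v = ms big v) (e' : tot L = tot big) :
    Flw N src F R don L :=
  ⟨h.nd, h.supp, h.cap, fun v => e v ▸ h.cons v, h.donR, fun v => e v ▸ h.rest v, e' ▸ h.sum⟩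

theorem Flw.more (h : Flw N src F R don big) (hV : ∀ v ∈ V, N.nd v) :
    Flw N src F (V ++ R) don big :=
  ⟨List.forall_mem_append.2 ⟨hV, h.nd⟩, fun u v k => ⟨List.mem_append_right _ (h.supp u v k).1,
    List.mem_append_right _ (h.supp u v k).2.1, (h.supp u v k).2.2⟩, h.cap, h.cons,
    fun p hp => List.mem_append_right _ (h.donR p hp), h.rest, h.sum⟩

theorem sum_split {ι : Type} (L : List ι) (c : ι → Prop) [DecidablePred c] (x : ι → ℕ) :
    ((L.filter fun p => decide (c p)).map x).sum + ((L.filter fun p => decide (¬ c p)).map x).sum =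
      (L.map x).sum := by
  induction L with
  | nil => rfl
  | cons p L ih => by_cases k : c p <;> simp [k, ← ih] <;> omega

theorem Flw.small (h : Flw N src F R don L) (hL : ∀ p ∈ L, p.1 ∈ R) (c : ℕ × ℕ → Prop)
    [DecidablePred c] : Flw N src F R ((L.filter fun p => decide (c p)) ++ don)
      (L.filter fun p => decide (¬ c p)) := by
  have e : ∀ v, ms (L.filter fun p => decide (c p)) v + ms (L.filter fun p => decide (¬ c p)) v =
    ms L v := fun v => sum_split L c _
  have e' : tot (L.filter fun p => decide (c p)) + tot (L.filter fun p => decide (¬ c p)) =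
    tot L := sum_split L c _
  refine ⟨h.nd, h.supp, h.cap, fun v => ?_, List.forall_mem_append.2
    ⟨fun p hp => hL p (List.mem_filter.1 hp).1, h.donR⟩, fun v => ?_, ?_⟩
  · have := h.cons v
    have := e v
    rw [ms_append]
    omega
  · have := h.rest v
    have := e v
    omega
  · have := h.sum
    rw [tot_append]
    omega

theorem ms_le_tot (L : List (ℕ × ℕ)) (v : ℕ) : ms L v ≤ tot L :=
  lsum_le fun p _ => by split_ifs <;> omega

theorem le_ms {p : ℕ × ℕ} (hp : p ∈ L) : p.2 ≤ ms L p.1 := by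
  simpa [ms] using List.le_sum_of_mem
    (List.mem_map_of_mem (f := fun q : ℕ × ℕ => if q.1 = p.1 then q.2 else 0) hp)

theorem ms_le (hn : (L.map Prod.fst).Nodup) (h : ∀ p ∈ L, p.2 ≤ ρ) (v : ℕ) : ms L v ≤ ρ := by
  refine (lsum_le (y := fun p => if p.1 = v then ρ else 0) fun p hp => ?_).trans ?_
  · have := h p hp
    split_ifs <;> omega
  · have := List.sum_toFinset (fun u => if u = v then ρ else 0) hn
    rw [List.map_map, sum_ite_eq'] at this
    refine (le_of_eq this.symm).trans ?_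
    split_ifs <;> omega

theorem tot_eq {L L' : List (ℕ × ℕ)} (h : ∀ v, ms L v = ms L' v) : tot L = tot L' := by
  have k : ∀ X : List (ℕ × ℕ), X ⊆ L ++ L' →
      tot X = ∑ v ∈ ((L ++ L').map Prod.fst).toFinset, ms X v := fun X hX => by
    simp only [ms, sum_key]
    exact lsum_congr fun p hp => (if_pos (List.mem_toFinset.2 (List.mem_map_of_mem (hX hp)))).symm
  rw [k L (List.subset_append_left _ _), k L' (List.subset_append_right _ _)]
  exact sum_congr rfl fun v _ => h v

/-- One entry per node. -/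
def norm (L : List (ℕ × ℕ)) : M (List (ℕ × ℕ)) := do
  let A ← foldM (fun (A : Arr ℕ) (p : ℕ × ℕ) => do
    let x ← num (A.get p.1 + p.2)
    pure (A.set p.1 x)) (Arr.const 0) L
  let q ← foldM (fun (q : Arr ℕ × List (ℕ × ℕ)) (p : ℕ × ℕ) =>
    pure (if q.1.get p.1 = 0 then q else (q.1.set p.1 0, (p.1, q.1.get p.1) :: q.2))) (A, []) L
  pure q.2

theorem impl_norm : Impl norm := by
  unfold norm
  fun_prop

theorem norm_tri {B : ℕ} (hB : tot L ≤ B) : Tri ⟨B, true⟩ (norm L) fun o t =>
    (o.map Prod.fst).Nodup ∧ (∀ p ∈ o, 0 < p.2) ∧ (∀ v, ms o v = ms L v) ∧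
      o.length ≤ L.length ∧ t ≤ 2 * L.length := by
  refine (Tri.foldM (fun pre (A : Arr ℕ) t => (∀ v, A.get v = ms pre v) ∧ t ≤ pre.length)
    (by simp [ms]) ?_).bind fun A t0 ⟨h1, h2⟩ => ?_
  · rintro pre p rest A t rfl ⟨h1, h2⟩
    have := ms_le_tot pre p.1
    simp only [tot, List.map_append, List.sum_append, List.map_cons, List.sum_cons] at hB this
    refine ⟨by rw [h1]; dsimp only; omega, fun v => ?_, by simpa using h2⟩
    rw [Arr.get_set, ms_append, h1, h1]
    split_ifs with k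
    · simp [ms, k]
    · simp [ms, Ne.symm k]
  refine (Tri.foldM (s := (A, [])) (fun pre (q : Arr ℕ × List (ℕ × ℕ)) t =>
    (q.2.map Prod.fst).Nodup ∧ (∀ p ∈ q.2, 0 < p.2 ∧ q.1.get p.1 = 0) ∧
    (∀ v, ms q.2 v + q.1.get v = ms L v) ∧ (∀ p ∈ pre, q.1.get p.1 = 0) ∧
    q.2.length ≤ pre.length ∧ t ≤ pre.length) (by simp [ms] at h1 ⊢; exact h1) ?_).bind ?_
  · rintro pre p rest q t - ⟨a1, a2, a3, a4, a5, a6⟩
    rw [Tri_pure, List.length_append, List.length_singleton]
    have z : ∀ u, q.1.get u = 0 → (q.1.set p.1 0).get u = 0 := fun u hu => by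
      rw [Arr.get_set]
      split_ifs
      · rfl
      · exact hu
    split_ifs with k
    · exact ⟨a1, a2, a3, List.forall_mem_append.2 ⟨a4, by simpa using k⟩, by omega, by omega⟩
    · refine ⟨List.nodup_cons.2 ⟨fun x => ?_, a1⟩, List.forall_mem_cons.2 ⟨⟨Nat.pos_of_ne_zero k,
        by simp⟩, fun x hx => ⟨(a2 x hx).1, z _ (a2 x hx).2⟩⟩, fun v => ?_,
        List.forall_mem_append.2 ⟨fun x hx => z _ (a4 x hx), by simp⟩, by simpa using a5, by omega⟩
      · obtain ⟨y, hy, e⟩ := List.mem_map.1 x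
        exact k (by rw [← show y.1 = p.1 from e]; exact (a2 y hy).2)
      · rw [← a3 v, Arr.get_set]
        split_ifs with k'
        · simp [ms, k', add_comm]
        · simp [ms, Ne.symm k']
  · rintro q t ⟨a1, a2, a3, a4, a5, a6⟩
    refine ⟨a1, fun p hp => (a2 p hp).1, fun v => ?_, a5, by omega⟩
    have := a3 v
    by_cases k : ∃ p ∈ L, p.1 = v
    · obtain ⟨p, hp, rfl⟩ := k
      rwa [a4 p hp] at this
    · rw [ms_eq_zero (L := L) fun p hp e => k ⟨p, hp, e⟩] at this ⊢
      omega

/-- The flow from `u` to `w`. -/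
def dl (r : List (Ac × ℕ)) (u w : ℕ) : ℕ :=
  (r.map fun p => if p.1.1 = u ∧ p.1.2.1 = w ∧ u ≠ 0 ∧ w ≠ 0 then p.2 else 0).sum

theorem sum_fm {ι κ : Type} (r : List ι) (c : ι → Prop) [DecidablePred c] (m : ι → κ)
    (φ : κ → ℕ) : ((r.filterMap fun p => if c p then some (m p) else none).map φ).sum =
      (r.map fun p => if c p then φ (m p) else 0).sum := by
  induction r with
  | nil => rfl
  | cons p r ih => by_cases k : c p <;> simp [k, ih]

/-- A flow of the capped problem is added. -/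
theorem XR.push {f : Arr (Arr ℕ)} {r : List (Ac × ℕ)} {T : ℕ → Prop}
    (h : XR N (rcap N f s) big V E S) (hN : N.OK b)
    (hl : r.map Prod.fst = stat big V E fun _ => ρ) (hm : MF 0 id r T)
    (hF : Flw N src (fun u v => (f.get u).get v) R don big) {rs dn : List (ℕ × ℕ)}
    (hr : rs = r.filterMap fun p => if p.1.1 = 0 then some (p.1.2.1, p.1.2.2 - p.2) else none)
    (hd : dn = r.filterMap fun p => if p.1.2.1 = 0 then some (p.1.1, p.2) else none) :
    Flw N src (fun u w => (f.get u).get w + dl r u w) (V ++ R) (dn ++ don) rs ∧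
      tot rs + val 0 id r = tot big ∧ (∀ u w, dl r u w ≤ s) ∧ ∀ v, ms dn v ≤ ρ := by
  have sm : ∀ φ : Ac → ℕ, (r.map fun p => φ p.1).sum =
      (big.map fun p => φ (0, p.1, p.2)).sum + ∑ v ∈ V.toFinset, φ (v, 0, ρ) +
      ∑ u ∈ S, ((N.adj u).map fun w => φ (u, w, rcap N f s u w)).sum := fun φ => by
    rw [← h.stat_sum (k := fun _ => ρ) φ, ← hl, List.map_map]; rfl
  have hc : ∀ p ∈ r, p.2 ≤ p.1.2.2 := hm.cap
  have le : ∀ (Q : Ac → Prop) [DecidablePred Q], (r.map fun p => if Q p.1 then p.2 else 0).sum ≤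
      _ := fun Q _ => (lsum_le fun p hp => by
        have := hc p hp
        split_ifs <;> omega).trans_eq (sm fun e => if Q e then e.2.2 else 0)
  have cls : ∀ p ∈ r, (p.1.1 = 0 ∧ p.1.2.1 ≠ 0) ∨ (p.1.2.1 = 0 ∧ p.1.1 ∈ V) ∨
      (p.1.1 ∈ S ∧ p.1.2.1 ∈ N.adj p.1.1) := fun p hp => by
    have : p.1 ∈ stat big V E fun _ => ρ := hl ▸ List.mem_map_of_mem hp
    simp only [stat, List.mem_append, List.mem_map] at this
    rcases this with ⟨x, hx, e⟩ | ⟨x, hx, e⟩ | hx
    · exact Or.inl (e ▸ ⟨rfl, h.ne hN (h.key x hx)⟩)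
    · exact Or.inr (Or.inl (e ▸ ⟨rfl, hx⟩))
    · exact Or.inr (Or.inr ⟨(h.mem hx).1, (h.mem hx).2.1⟩)
  have d1 : ∀ u w, dl r u w ≤ rcap N f s u w := fun u w => by
    refine (le fun e => e.1 = u ∧ e.2.1 = w ∧ u ≠ 0 ∧ w ≠ 0).trans ?_
    rw [List.sum_eq_zero fun x hx => by
      obtain ⟨p, -, rfl⟩ := List.mem_map.1 hx
      exact if_neg fun k => k.2.2.1 k.1.symm, sum_eq_zero fun v _ =>
      if_neg fun k => k.2.2.2 k.2.1.symm, zero_add, zero_add]
    refine (sum_le_sum (s := S) (g := fun x => if x = u then rcap N f s u w else 0)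
      fun x hx => ?_).trans (by rw [sum_ite_eq']; split_ifs <;> omega)
    rw [← List.sum_toFinset _ (hN.nodup x (h.nd x (h.sV x hx))).1]
    refine (sum_le_sum (s := (N.adj x).toFinset)
      (g := fun y => if y = w then if x = u then rcap N f s u w else 0 else 0)
      fun y _ => ?_).trans (by rw [sum_ite_eq']; split_ifs <;> omega)
    by_cases k : x = u ∧ y = w ∧ u ≠ 0 ∧ w ≠ 0
    · simp [k.1, k.2.1, k.2.2.1, k.2.2.2]
    · simp [k]
  have d2 : ∀ u w, dl r u w ≠ 0 → u ∈ S ∧ w ∈ N.adj u := fun u w k => by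
    by_contra a
    refine k (List.sum_eq_zero fun x hx => ?_)
    obtain ⟨p, hp, rfl⟩ := List.mem_map.1 hx
    refine if_neg ?_
    rintro ⟨rfl, rfl, k1, k2⟩
    rcases cls p hp with c | c | c
    exacts [k1 c.1, k2 c.1, a c]
  have r1 : ∀ (P : ℕ → Prop) [DecidablePred P], (rs.map fun p => if P p.1 then p.2 else 0).sum +
      (r.map fun p => if p.1.1 = 0 ∧ P p.1.2.1 then p.2 else 0).sum =
      (big.map fun p => if P p.1 then p.2 else 0).sum := fun P _ => by
    have := sm fun e => if e.1 = 0 ∧ P e.2.1 then e.2.2 else 0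
    rw [sum_eq_zero fun v hv => if_neg fun k => h.ne hN (List.mem_toFinset.1 hv) k.1,
      sum_eq_zero fun u hu => by simp [h.ne hN (h.sV u hu)]] at this
    simp only [true_and, add_zero] at this
    rw [hr, sum_fm, ← lsum_add, ← this]
    refine lsum_congr fun p hp => ?_
    have := hc p hp
    by_cases k1 : p.1.1 = 0 <;> by_cases k2 : P p.1.2.1 <;> simp [k1, k2, this]
  have r2 : ∀ v, ms rs v + (r.map fun p => if p.1.1 = 0 ∧ p.1.2.1 = v then p.2 else 0).sum =
    ms big v := fun v => r1 (· = v)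
  have r3 : tot rs + val 0 id r = tot big := by
    simpa only [tot, P305C.val, and_true, if_true, id] using r1 fun _ => True
  have n1 : ∀ v, ms dn v = (r.map fun p => if p.1.2.1 = 0 ∧ p.1.1 = v then p.2 else 0).sum :=
    fun v => by rw [hd, ms, sum_fm]; simp only [ite_and]
  have n2 : tot dn = val 0 id r := by rw [hd, tot, sum_fm]; exact hm.cons 0
  have c1 : ∀ v, ms big v + ((N.adj v).map fun w => dl r w v).sum =
      ms rs v + ms dn v + ((N.adj v).map fun w => dl r v w).sum := fun v => by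
    by_cases hv : N.nd v
    · have h0 : v ≠ 0 := fun e => hN.zero (e ▸ hv)
      have i1 := sum_key r (fun p => p.1.1) (fun p => if p.1.2.1 = v ∧ p.1.1 ≠ 0 then p.2 else 0)
        (N.adj v).toFinset
      have i2 := sum_key r (fun p => p.1.2.1)
        (fun p => if p.1.1 = v ∧ p.1.2.1 ≠ 0 then p.2 else 0) (N.adj v).toFinset
      rw [List.sum_toFinset _ (hN.nodup v hv).1] at i1 i2
      rw [lsum_congr (x := fun w => dl r w v) fun w _ => lsum_congr (y := fun p : Ac × ℕ =>
          if p.1.1 = w then if p.1.2.1 = v ∧ p.1.1 ≠ 0 then p.2 else 0 else 0) fun p _ => by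
            by_cases k : p.1.1 = w <;> simp [k, h0], i1,
        lsum_congr (x := fun w => dl r v w) fun w _ => lsum_congr (y := fun p : Ac × ℕ =>
          if p.1.2.1 = w then if p.1.1 = v ∧ p.1.2.1 ≠ 0 then p.2 else 0 else 0) fun p _ => by
            by_cases k : p.1.2.1 = w <;> simp [k, h0], i2, ← r2, n1, add_assoc, add_assoc,
        ← lsum_add, ← lsum_add]
      refine congrArg _ ((lsum_congr fun p hp => ?_).trans
        ((hm.cons v).trans (lsum_congr fun p hp => ?_)))
      · by_cases k : p.1.2.1 = v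
        · rcases cls p hp with c | c | c
          · simp [k, c.1]
          · exact absurd (k ▸ c.1) h0
          · have := hN.cl _ (h.nd _ (h.sV _ c.1)) _ c.2
            simp [k, h.ne hN (h.sV _ c.1), k ▸ this.2.1]
        · simp [k]
      · by_cases k : p.1.1 = v
        · rcases cls p hp with c | c | c
          · exact absurd (k ▸ c.1) h0
          · simp [k, c.1]
          · simp [k, h.ne hN (h.cl _ c.1 _ c.2), k ▸ c.2]
        · simp [k]
    · have := r2 v
      rw [ms_eq_zero (L := big) fun p hp (e : p.1 = v) => hv (e ▸ h.nd _ (h.key p hp))] at this ⊢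
      rw [List.sum_eq_zero fun x hx => ?_, List.sum_eq_zero (l := (N.adj v).map _) fun x hx => ?_,
        n1, List.sum_eq_zero fun x hx => ?_]
      · omega
      · obtain ⟨p, hp, rfl⟩ := List.mem_map.1 hx
        refine if_neg fun k => ?_
        rcases cls p hp with c | c | c
        exacts [c.2 k.1, hv (k.2 ▸ h.nd _ c.2), hv (k.2 ▸ h.nd _ (h.sV _ c.1))]
      · obtain ⟨w, -, rfl⟩ := List.mem_map.1 hx
        by_contra k
        exact hv (h.nd _ (h.sV _ (d2 _ _ k).1))
      · obtain ⟨w, -, rfl⟩ := List.mem_map.1 hx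
        by_contra k
        exact hv (h.nd _ (h.cl _ (d2 _ _ k).1 _ (d2 _ _ k).2))
  refine ⟨⟨(hF.more h.nd).nd, fun u w k => ?_, fun u w => ?_, fun v => ?_,
    List.forall_mem_append.2 ⟨fun p hp => ?_, (hF.more h.nd).donR⟩, fun v => ?_, ?_⟩, r3,
    fun u w => (d1 u w).trans (min_le_left _ _), fun v => ?_⟩
  · by_cases k' : dl r u w = 0
    · exact (hF.more h.nd).supp u w (by omega)
    · exact ⟨List.mem_append_left _ (h.sV _ (d2 u w k').1),
        List.mem_append_left _ (h.cl _ (d2 u w k').1 _ (d2 u w k').2), (d2 u w k').2⟩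
  · have := (d1 u w).trans (min_le_right _ _)
    have := hF.cap u w
    simp only [Nw.res] at *
    omega
  · have := hF.cons v
    have := c1 v
    rw [lsum_add, lsum_add _ (fun w => (f.get v).get w) fun w => dl r v w, ms_append]
    omega
  · rw [hd] at hp
    obtain ⟨q, hq, e⟩ := List.mem_filterMap.1 hp
    split_ifs at e with k
    obtain rfl := Option.some.inj e
    rcases cls q hq with c | c | c
    exacts [absurd k c.2, List.mem_append_left _ c.2, List.mem_append_left _ (h.sV _ c.1)]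
  · have := hF.rest v
    have := r2 v
    omega
  · have := hF.sum
    rw [tot_append]
    omega
  · rw [n1]
    refine (le fun e => e.2.1 = 0 ∧ e.1 = v).trans ?_
    rw [List.sum_eq_zero fun x hx => by
      obtain ⟨p, hp, rfl⟩ := List.mem_map.1 hx
      exact if_neg fun k => h.ne hN (h.key p hp) k.1, sum_eq_zero (s := S) fun u hu =>
      List.sum_eq_zero fun x hx => by
        obtain ⟨w, hw, rfl⟩ := List.mem_map.1 hx
        exact if_neg fun k => h.ne hN (h.cl u hu w hw) k.1]
    simp only [true_and, sum_ite_eq', zero_add, add_zero]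
    split_ifs <;> omega

end Vale.Agent.P305LC
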