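import Vale.Agent.P305LC.Flow

/-!
# One round of the local flow computation
-/

namespace Vale.Agent.P305LC

open Vale.Agent.P305E Vale.Agent.P305F Vale.Agent.P305C Finset

variable {β σ : Type}

/-- The flow on one arc is added. -/
def addF (f : Arr (Arr ℕ)) (p : Ac × ℕ) : M (Arr (Arr ℕ)) :=
  if p.1.1 = 0 ∨ p.1.2.1 = 0 then pure f else do
    let x ← num ((f.get p.1.1).get p.1.2.1 + p.2)
    pure (f.set p.1.1 ((f.get p.1.1).set p.1.2.1 x))

theorem addF_tri {B : ℕ} {f : Arr (Arr ℕ)} {r : List (Ac × ℕ)}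
    (h : ∀ u w, (f.get u).get w + dl r u w ≤ B) : Tri ⟨B, true⟩ (foldM addF f r) fun A t =>
      (∀ u w, (A.get u).get w = (f.get u).get w + dl r u w) ∧ t ≤ r.length := by
  refine Tri.foldM (fun pre (A : Arr (Arr ℕ)) t =>
    (∀ u w, (A.get u).get w = (f.get u).get w + dl pre u w) ∧ t ≤ pre.length) (by simp [dl]) ?_
  rintro pre p rest A t rfl ⟨h1, h2⟩
  unfold addF
  rw [Tri_ite]
  refine ⟨fun k => ⟨fun u w => ?_, by simpa using h2⟩, fun k => ⟨?_, fun u w => ?_,
    by simpa using h2⟩⟩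
  · have : ¬ (p.1.1 = u ∧ p.1.2.1 = w ∧ u ≠ 0 ∧ w ≠ 0) := by
      rintro ⟨rfl, rfl, a⟩
      tauto
    simp only [h1, dl, List.map_append, List.sum_append, List.map_singleton, List.sum_singleton,
      if_neg this, add_zero]
  · have := h p.1.1 p.1.2.1
    rw [not_or] at k
    simp only [dl, List.map_append, List.sum_append, List.map_cons, List.sum_cons, true_and,
      if_pos k] at this
    simp only [h1, dl]
    omega
  · rw [not_or] at k
    by_cases a : u = p.1.1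
    · by_cases a' : w = p.1.2.1
      · simp [a, a', h1, dl, k, add_assoc]
      · simp [a, a', h1, dl, Ne.symm a']
    · simp [a, h1, dl, Ne.symm a]

/-- The list of arcs of a static problem. -/
def statP (big : List (ℕ × ℕ)) (V : List ℕ) (E : List Ac) (A : Arr Bool) (x y : ℕ) :
    M (List Ac) := do
  let l₁ ← mapP (fun p : ℕ × ℕ => (0, p.1, p.2)) big
  let l₂ ← mapP (fun v => (v, 0, if A.get v = true then x else y)) V
  let l₃ ← appendP l₂ E
  appendP l₁ l₃

theorem statP_tri {B : ℕ} (big : List (ℕ × ℕ)) (V : List ℕ) (E : List Ac) (A : Arr Bool)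
    (x y : ℕ) : Tri ⟨B, true⟩ (statP big V E A x y) fun l t =>
      l = stat big V E (fun v => if A.get v = true then x else y) ∧
        t ≤ 2 * big.length + 2 * V.length := by
  simp [statP, stat]
  omega

/-- The state: pushed amounts, touched nodes, donations, remaining sources. -/
abbrev St : Type := Arr (Arr ℕ) × List ℕ × List (ℕ × ℕ) × List (ℕ × ℕ)

/-- A flow of the capped problem is added. -/
def augment (f : Arr (Arr ℕ)) (R : List ℕ) (don : List (ℕ × ℕ)) (r : List (Ac × ℕ)) :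
    M (St ⊕ Out) := do
  let f ← foldM (fun A p => addF A p) f r
  let rs ← filterMapP (fun p : Ac × ℕ =>
    if p.1.1 = 0 then some (p.1.2.1, p.1.2.2 - p.2) else none) r
  let dn ← filterMapP (fun p : Ac × ℕ => if p.1.2.1 = 0 then some (p.1.1, p.2) else none) r
  let don ← appendP dn don
  pure (Sum.inl (f, R, don, rs))

/-- A static problem is solved. -/
def static (mcf : ℕ → Net → M (Arr ℕ)) (b : ℕ) (big : List (ℕ × ℕ))
    (o : List ℕ × Arr Bool × List Ac) (x y : ℕ) : M (List (Ac × ℕ) × Arr ℤ) := do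
  let l ← statP big o.1 o.2.2 o.2.1 x y
  mflow mcf b 0 id l

/-- Explore, test, augment. -/
def solve (X : Bx β) (nb : σ → ℕ → M (List Ac)) (mcf : ℕ → Net → M (Arr ℕ)) (st : σ)
    (b ρ n : ℕ) (q : St) : M (St ⊕ Out) := do
  let s ← sumP Prod.snd q.2.2.2
  let o ← explore X nb st b ρ n q.1 s q.2.2.2
  let R ← appendP o.1 q.2.1
  let r ← static mcf b q.2.2.2 o ρ s
  let v ← sumP (fun p : Ac × ℕ => if p.1.1 = 0 then p.2 else 0) r.1
  if 2 * v ≤ s then do
    let Z ← filterP (fun v => decide (r.2.get v < r.2.get 0)) o.1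
    pure (Sum.inr (q.1, R, q.2.2.1, q.2.2.2, Z))
  else do
    let r ← static mcf b q.2.2.2 o ρ ρ
    augment q.1 R q.2.2.1 r.1

variable [Rep β] {X : Bx β} {c c' : ℕ} {g g' : ℕ → ℕ} {I : ℕ → ℕ → ℕ → OG → β → ℕ → Prop}
  {mcf : ℕ → Net → M (Arr ℕ)} {nb : σ → ℕ → M (List Ac)}

theorem impl_solve [Rep σ] (h : BoxOK False X c g I) (hm : McfOK mcf c' g')
    (hn : Impl fun p : σ × ℕ => nb p.1 p.2) :
    Impl fun p : σ × ℕ × ℕ × ℕ × St => solve X nb mcf p.1 p.2.1 p.2.2.1 p.2.2.2.1 p.2.2.2.2 := by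
  have h1 := impl_explore h hn
  have h2 : Impl fun p : ℕ × List Ac => mflow mcf p.1 0 id p.2 :=
    impl_mflow (u := fun _ => id) hm.impl (by fun_prop) (by fun_prop)
      (Pure.snd Pure.id) (by fun_prop)
  have h3 : Impl fun p : Arr (Arr ℕ) × Ac × ℕ => addF p.1 p.2 := by
    unfold addF
    fun_prop
  have h4 : Impl fun p : List (ℕ × ℕ) × List ℕ × List Ac × Arr Bool × ℕ × ℕ =>
      statP p.1 p.2.1 p.2.2.1 p.2.2.2.1 p.2.2.2.2.1 p.2.2.2.2.2 := by
    unfold statP
    fun_prop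
  have h5 : Impl fun p : Arr (Arr ℕ) × List ℕ × List (ℕ × ℕ) × List (Ac × ℕ) =>
      augment p.1 p.2.1 p.2.2.1 p.2.2.2 := by
    unfold augment
    fun_prop
  have h6 : Impl fun p : ℕ × List (ℕ × ℕ) × (List ℕ × Arr Bool × List Ac) × ℕ × ℕ =>
      static mcf p.1 p.2.1 p.2.2.1 p.2.2.2.1 p.2.2.2.2 := by
    unfold static
    fun_prop
  unfold solve
  fun_prop

variable {N : Nw} {b B ρ m n : ℕ} {U : Finset ℕ} {st : σ} {src : List (ℕ × ℕ)}

theorem static_vt (hm : McfOK mcf c' g') {rc : ℕ → ℕ → ℕ} {big : List (ℕ × ℕ)} {V : List ℕ}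
    {A : Arr Bool} {E : List Ac} {S : Finset ℕ} (h : XR N rc big V E S) {x y Λ H : ℕ}
    (hB : 2 ^ ((11 * c' + 20) * (b + 4 + 1)) ≤ B) (h1 : ∀ p ∈ big, p.2 ≤ 2 ^ b) (h2 : x ≤ 2 ^ b)
    (h3 : y ≤ 2 ^ b) (h4 : ∀ u w, rc u w ≤ 2 ^ b)
    (h5 : big.length + V.length + E.length ≤ 10 * 2 ^ b)
    (h6 : big.length + V.length + E.length < 19 * Λ) (h7 : cmG g' (b + 4) + 2 ≤ H) :
    Vt (b + 4) B (static mcf (b + 4) big (V, A, E) x y) fun r t =>
      r.1.map Prod.fst = stat big V E (fun v => if A.get v = true then x else y) ∧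
      MF 0 id r.1 (fun v => r.2.get v < r.2.get 0) ∧ r.1.length ≤ 19 * Λ ∧ t ≤ 19 * (Λ * H) := by
  refine Vt.tbind (statP_tri _ _ _ _ _ _) ?_
  rintro _ t ⟨rfl, ht⟩
  dsimp only at ht ⊢
  have p4 : 2 ^ (b + 4) = 16 * 2 ^ b := by ring
  have e : (stat big V E fun v => if A.get v = true then x else y).length =
    big.length + (V.length + E.length) := by simp [stat]
  refine (mflow_vt hm (by omega) (fun e he => ?_) hB (by omega)).mono fun r t' a =>
    ⟨a.1, a.2.1, by have := congrArg List.length a.1; rw [List.length_map] at this; omega, ?_⟩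
  · refine le_trans ?_ (show 2 ^ b ≤ _ by omega)
    simp only [stat, List.mem_append, List.mem_map] at he
    rcases he with ⟨p, hp, rfl⟩ | ⟨v, -, rfl⟩ | he
    · exact h1 p hp
    · simp only [id]
      split_ifs <;> assumption
    · exact (h.mem he).2.2.trans_le (h4 _ _)
  · have := a.2.2.trans (Nat.mul_le_mul_right _ (show _ ≤ 19 * Λ by omega))
    have := Nat.mul_le_mul_left (19 * Λ) h7
    nlinarith

theorem augment_tri {f : Arr (Arr ℕ)} {R V : List ℕ} {don big : List (ℕ × ℕ)} {E : List Ac}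
    {S : Finset ℕ} {s : ℕ} {r : List (Ac × ℕ)} {T : ℕ → Prop} (h : XR N (rcap N f s) big V E S)
    (hN : N.OK b) (hl : r.map Prod.fst = stat big V E fun _ => ρ) (hm : MF 0 id r T)
    (hF : Flw N src (fun u v => (f.get u).get v) R don big) (hf : ∀ u v, (f.get u).get v + s ≤ B) :
    Tri ⟨B, true⟩ (augment f (V ++ R) don r) fun o t => ∃ q : St, o = Sum.inl q ∧
      Flw N src (fun u v => (q.1.get u).get v) q.2.1 q.2.2.1 q.2.2.2 ∧ q.2.1 = V ++ R ∧
      (∀ u v, (q.1.get u).get v ≤ (f.get u).get v + s) ∧ (∀ v, ms q.2.2.1 v ≤ ms don v + ρ) ∧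
      tot q.2.2.2 + val 0 id r = tot big ∧
      q.2.2.1.length + 8 * q.2.2.2.length + t ≤ don.length + 13 * r.length := by
  obtain ⟨w1, w2, w3, w4⟩ := h.push hN hl hm hF rfl rfl
  refine (addF_tri (r := r) fun u w => by have := w3 u w; have := hf u w; omega).bind ?_
  rintro f' t ⟨a1, a2⟩
  have l7 := List.length_filterMap_le (fun p : Ac × ℕ =>
    if p.1.1 = 0 then some (p.1.2.1, p.1.2.2 - p.2) else none) r
  have l8 := List.length_filterMap_le (fun p : Ac × ℕ =>
    if p.1.2.1 = 0 then some (p.1.1, p.2) else none) r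
  simp only [Tri_bind, Tri_filterMapP, Tri_appendP, Tri_pure]
  refine ⟨_, rfl, ?_⟩
  simp only [a1, ms_append, List.length_append]
  exact ⟨w1, trivial, fun u v => Nat.add_le_add_left (w3 u v) _,
    fun v => by have := w4 v; omega, w2, by omega⟩

theorem solve_vt (h : BoxOK False X c g I) (hm : McfOK mcf c' g') (hE : Env N b B U (nb st))
    (h1 : 1 ≤ ρ) (h2 : ρ ≤ 2 ^ b) (hB : 2 ^ (c * (b + 4 + 1)) ≤ B)
    (hB' : 2 ^ ((11 * c' + 20) * (b + 4 + 1)) ≤ B) (hn : 2 ^ b < n) {f : Arr (Arr ℕ)}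
    {R : List ℕ} {don big : List (ℕ × ℕ)} (hF : Flw N src (fun u v => (f.get u).get v) R don big)
    (hf : ∀ u v, (f.get u).get v + 2 ^ b ≤ B) (b1 : (big.map Prod.fst).Nodup)
    (b2 : ∀ p ∈ big, N.nd p.1 ∧ ρ < p.2) (b3 : 0 < tot big) (b4 : tot big ≤ 2 ^ b)
    (b5 : tot big ≤ ρ * m) {H : ℕ} (H1 : g (b + 4) + cmG g' (b + 4) + b + 3 ≤ H) :
    Vt (b + 4) B (solve X nb mcf st (b + 4) ρ n (f, R, don, big)) fun r t => r.elim
      (fun q => Flw N src (fun u v => (q.1.get u).get v) q.2.1 q.2.2.1 q.2.2.2 ∧ R ⊆ q.2.1 ∧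
        (∀ u v, (q.1.get u).get v ≤ (f.get u).get v + tot big) ∧
        (∀ v, ms q.2.2.1 v ≤ ms don v + ρ) ∧
        50 * H ^ 2 * tot q.2.2.2 + tot big ≤ 50 * H ^ 2 * tot big ∧
        q.2.1.length + q.2.2.1.length + 8 * q.2.2.2.length + t ≤
          R.length + don.length + 400 * (H * m * H))
      fun o => o.1 = f ∧ o.2.2.1 = don ∧ o.2.2.2.1 = big ∧
        Flw N src (fun u v => (f.get u).get v) o.2.1 don big ∧ o.2.2.2.2.Nodup ∧
        (∀ v ∈ o.2.2.2.2, v ∈ o.2.1) ∧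
        2 * N.val (fun u v => (f.get u).get v) ρ big o.2.2.2.2.toFinset ≤ tot big ∧
        (∀ Z ⊆ o.2.2.2.2.toFinset, N.val (fun u v => (f.get u).get v) ρ big o.2.2.2.2.toFinset ≤
          N.val (fun u v => (f.get u).get v) ρ big Z) ∧
        o.2.1.length + big.length + o.2.2.2.2.length + t ≤ R.length + 400 * (H * m * H) := by
  have hb := hf 0 0
  have b6 : ∀ p ∈ big, p.2 ≤ 2 ^ b := fun p hp => ((le_ms hp).trans (ms_le_tot _ _)).trans b4
  have b7 : ρ * big.length ≤ tot big := by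
    refine le_trans (le_of_eq ?_) (lsum_le (x := fun _ => ρ) fun p hp => (b2 p hp).2.le)
    simp [mul_comm]
  have b8 : big.length ≤ m := Nat.le_of_mul_le_mul_left (b7.trans b5) h1
  have b9 : big.length ≤ 2 ^ b := (Nat.le_mul_of_pos_left _ h1).trans (b7.trans b4)
  have m1 : 1 ≤ m := Nat.pos_of_ne_zero fun e => by rw [e] at b5; omega
  have H2 : m ≤ H * m := Nat.le_mul_of_pos_left _ (by omega)
  have H3 : H * m ≤ H * m * H := Nat.le_mul_of_pos_right _ (by omega)
  refine Vt.tbind' ((Tri_sumP _ _ _).2 ⟨(show tot big ≤ B by omega), ?_⟩)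
  refine (explore_vt h hE (s := tot big) b4 h1 h2 hB b1 (fun p hp => ⟨(b2 p hp).1, b6 p hp⟩)
    hn).bind ?_
  rintro ⟨V, A, E⟩ t1 ⟨S, x1, x2, x3, x4, x5⟩
  dsimp only at x1 x2 x3 x4 x5
  have l1 := x2.len
  have l2 := x2.lenE hE.ok
  have l3 := hE.le (S := S) fun v hv => x2.nd v (x2.sV v hv)
  have l4 := hE.le (S := V.toFinset) fun v hv => x2.nd v (List.mem_toFinset.1 hv)
  rw [List.toFinset_card_of_nodup x2.nodup] at l4
  have l5 : S.card ≤ H * m := by
    have := x3 V.toFinset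
    rw [fuel_all x2, show (gr big V E S).scn ∩ V.toFinset = S from
      inter_eq_left.2 fun v hv => List.mem_toFinset.2 (x2.sV v hv)] at this
    refine Nat.le_of_mul_le_mul_left (this.trans ?_) h1
    rw [mul_left_comm]
    exact Nat.mul_le_mul (by omega) b5
  have l6 : t1 ≤ 20 * (H * m * H) :=
    x5.trans ((Nat.mul_le_mul (show _ ≤ 20 * (H * m) by omega) (show _ ≤ H by omega)).trans_eq
      (mul_assoc _ _ _))
  have mf := fun y hy => static_vt (A := A) (Λ := H * m) (H := H) (y := y) hm x2 hB' b6 h2 hy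
    (fun _ _ => (min_le_left _ _).trans b4) (by omega) (by omega) (by omega)
  refine Vt.tbind' ((Tri_appendP _ _ _).2 ((mf _ b4).bind ?_))
  rintro ⟨r, π⟩ t3 ⟨y2, y3, y4, y5⟩
  dsimp only at y2 y3 y4
  have v1 := y3.val_eq
  have v2 := y3.min_cut
  rw [y2] at v1 v2
  have v3 : val 0 id r ≤ tot big := by
    refine v1.trans_le ((v2 (fun _ => False) id).trans ?_)
    simp [x2.cut hE.ok, tot]
  refine Vt.tbind' ((Tri_sumP _ _ _).2 ⟨(show val 0 id r ≤ B by omega), ?_⟩)
  refine Vt.ite (p := 2 * val 0 id r ≤ tot big) (fun k => ?_) fun k => ?_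
  · have := x2.fin hE.ok (ρ := ρ) (fun v => by simp only [x1]) b3 _ y3.nz (v1 ▸ k)
      fun Z hZ => v2 _ hZ
    have l7 := List.length_filter_le (fun v => decide (π.get v < π.get 0)) V
    refine Vt.tbind' ((Tri_filterP _ _ _).2 (Vt.pure ⟨rfl, rfl, rfl, hF.more x2.nd,
      x2.nodup.filter _, fun v hv => List.mem_append_left _ (List.mem_filter.1 hv).1, ?_, ?_, ?_⟩))
    · simpa only [List.toFinset_filter, decide_eq_true_eq] using this.1
    · simpa only [List.toFinset_filter, decide_eq_true_eq] using this.2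
    · simp only [List.length_append]
      omega
  refine (mf _ h2).bind ?_
  rintro ⟨r', π'⟩ t5 ⟨z2, z3, z4, z5⟩
  dsimp only at z2 z3 z4
  simp only [ite_self] at z2
  obtain ⟨T, t0, t1⟩ := x2.stall hE.ok x4 (k := fun v => if A.get v = true then ρ else tot big)
    fun v hv => if_pos ((x1 v).2 hv)
  have u1 := x2.scn_le hE.ok x3 (fun v => π'.get v < π'.get 0) z3.nz
  have u2 := x2.big_le hE.ok b1 (fun p hp => (b2 p hp).2.le)
    (fun v => π'.get v < π'.get 0) z3.nz
  rw [← z2, ← z3.val_eq] at u1 u2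
  have u3 := (prog (not_le.1 k) (v1.trans_le ((v2 _ t0).trans t1)) u1 u2).trans
    (Nat.mul_le_mul_right _ (Nat.mul_le_mul_left 50 (Nat.pow_le_pow_left
      (show _ ≤ H by omega) 2)))
  refine Vt.of_tri ((augment_tri x2 hE.ok z2 z3 hF fun u v => by have := hf u v; omega).mono ?_)
  rintro _ t6 ⟨q, rfl, a1, a2, a3, a4, a5, a6⟩
  refine ⟨a1, a2 ▸ List.subset_append_right _ _, a3, a4, ?_, ?_⟩
  · have := congrArg (50 * H ^ 2 * ·) a5
    simp only [mul_add] at this
    omega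
  · rw [a2, List.length_append]
    dsimp only
    omega

end Vale.Agent.P305LC
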