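import Vale.Agent.P305LC.Exp
import Vale.Agent.P305LC.Name
import Vale.Agent.P305C.Cert

/-!
# The static problems of a round
-/

namespace Vale.Agent.P305LC

open Vale.Agent.P305E Vale.Agent.P305C Finset

/-- The arcs of the static problem; the hub is `0`. -/
def stat (big : List (ℕ × ℕ)) (V : List ℕ) (E : List Ac) (k : ℕ → ℕ) : List Ac :=
  big.map (fun p => (0, p.1, p.2)) ++ (V.map (fun v => (v, 0, k v)) ++ E)

variable {N : Nw} {rc : ℕ → ℕ → ℕ} {big : List (ℕ × ℕ)} {V : List ℕ} {E : List Ac}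
  {S : Finset ℕ} {b γ ρ s : ℕ} {k : ℕ → ℕ}

theorem XR.stat_sum (h : XR N rc big V E S) (φ : Ac → ℕ) : ((stat big V E k).map φ).sum =
    (big.map fun p => φ (0, p.1, p.2)).sum + ∑ v ∈ V.toFinset, φ (v, 0, k v) +
      ∑ u ∈ S, ((N.adj u).map fun w => φ (u, w, rc u w)).sum := by
  rw [← h.sum, List.sum_toFinset _ h.nodup]
  simp [stat, Function.comp_def, add_assoc]

theorem XR.ne (h : XR N rc big V E S) (hN : N.OK b) {v : ℕ} (hv : v ∈ V) : v ≠ 0 :=
  fun e => hN.zero (e ▸ h.nd v hv)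

theorem XR.cut (h : XR N rc big V E S) (hN : N.OK b) (T : ℕ → Prop) [DecidablePred T]
    (hT : ¬ T 0) : cutV 0 id (stat big V E k) T =
    (big.map fun p => if T p.1 then 0 else p.2).sum + ∑ v ∈ V.toFinset with T v, k v +
      ∑ u ∈ S, ((N.adj u).map fun w => if T u ∧ ¬ T w then rc u w else 0).sum := by
  rw [cutV, h.stat_sum, sum_filter]
  congr 1
  · congr 1
    · simp
    · exact sum_congr rfl fun v hv => by simp [hT, h.ne hN (List.mem_toFinset.1 hv)]
  · exact sum_congr rfl fun u hu => by simp [h.ne hN (h.sV u hu)]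

theorem XR.cut_fuel (h : XR N rc big V E S) (hN : N.OK b) (T : ℕ → Prop) [DecidablePred T]
    (hT : ¬ T 0) : cutV 0 id (stat big V E k) T =
    (gr big V E S).fuel (V.toFinset.filter fun v => ¬ T v) + ∑ v ∈ V.toFinset with T v, k v := by
  rw [h.cut hN T hT, add_right_comm]
  simp only [OG.fuel, gr, ms, sum_key, capIn, h.sum]
  congr 2
  · exact lsum_congr fun p hp => by simp [h.key p hp]
  · exact sum_congr rfl fun u hu => lsum_congr fun w hw => by simp [h.sV u hu, h.cl u hu w hw]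

/-- After a stall there is a small cut. -/
theorem XR.stall (h : XR N rc big V E S) (hN : N.OK b) (hs : (gr big V E S).Stall γ ρ)
    (hk : ∀ v ∈ S, k v = ρ) : ∃ T : Finset ℕ, 0 ∉ T ∧ cutV 0 id (stat big V E k) (· ∈ T) ≤
      γ * ρ * (2 * big.length + 24 * S.card) + ρ * S.card := by
  obtain ⟨X, h1, h2⟩ := hs
  have h0 : 0 ∉ V.toFinset \ X := fun a => h.ne hN (List.mem_toFinset.1 (mem_sdiff.1 a).1) rfl
  have h3 : V.toFinset.filter (· ∈ V.toFinset \ X) ⊆ S := fun v hv => by
    by_contra a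
    exact (mem_sdiff.1 (mem_filter.1 hv).2).2 (h1 (mem_sdiff.2 ⟨(mem_filter.1 hv).1, a⟩))
  refine ⟨_, h0, ?_⟩
  rw [h.cut_fuel hN _ h0, sum_congr rfl fun v hv => hk v (h3 hv), sum_const, smul_eq_mul,
    mul_comm _ ρ]
  refine add_le_add ?_ (Nat.mul_le_mul_left _ (card_le_card h3))
  rw [show V.toFinset.filter (fun v => ¬ v ∈ V.toFinset \ X) = X ∩ V.toFinset by
    ext v; simp; tauto]
  refine (((gr big V E S).fuel_inter _ (fun e he => ?_) X).trans h2).trans
    (Nat.mul_le_mul_left _ ?_)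
  · have := h.mem he
    exact ⟨List.mem_toFinset.2 (h.sV _ this.1), List.mem_toFinset.2 (h.cl _ this.1 _ this.2.1)⟩
  · have := h.len
    have := h.lenE hN
    have := V.toFinset_card_le
    simp only [gr]
    omega

/-- With capped sinks every cut pays for the scanned nodes. -/
theorem XR.scn_le (h : XR N rc big V E S) (hN : N.OK b) (hf : (gr big V E S).Fuel γ ρ)
    (T : ℕ → Prop) [DecidablePred T] (hT : ¬ T 0) :
    ρ * S.card ≤ (γ + 1) * cutV 0 id (stat big V E fun _ => ρ) T := by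
  rw [h.cut_fuel hN T hT, sum_const, smul_eq_mul]
  have h1 := hf (V.toFinset.filter fun v => ¬ T v)
  have h2 : S.card ≤ (S ∩ V.toFinset.filter fun v => ¬ T v).card +
      (V.toFinset.filter T).card := (card_le_card fun v hv => by
    by_cases a : T v <;> simp [a, hv, h.sV v hv]).trans (card_union_le _ _)
  have h3 := Nat.mul_le_mul_left ρ h2
  simp only [gr] at h1 ⊢
  nlinarith [Nat.zero_le (γ * ((V.toFinset.filter T).card * ρ))]

/-- With capped sinks every cut pays for the sources. -/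
theorem XR.big_le (h : XR N rc big V E S) (hN : N.OK b) (hn : (big.map Prod.fst).Nodup)
    (hb : ∀ p ∈ big, ρ ≤ p.2) (T : ℕ → Prop) [DecidablePred T] (hT : ¬ T 0) :
    ρ * big.length ≤ cutV 0 id (stat big V E fun _ => ρ) T := by
  rw [h.cut hN T hT]
  refine le_add_right ?_
  have h1 : ∑ _v ∈ (big.map Prod.fst).toFinset with T _v, ρ ≤ ∑ _v ∈ V.toFinset with T _v, ρ :=
    sum_le_sum_of_subset (filter_subset_filter _ fun v hv => by
      obtain ⟨p, hp, rfl⟩ := List.mem_map.1 (List.mem_toFinset.1 hv)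
      exact List.mem_toFinset.2 (h.key p hp))
  refine le_trans ?_ (add_le_add le_rfl h1)
  rw [sum_filter, List.sum_toFinset _ hn, List.map_map, ← lsum_add, mul_comm]
  refine le_trans (le_of_eq (by simp)) (lsum_le (x := fun _ => ρ) fun p hp => ?_)
  have := hb p hp
  simp only [Function.comp]
  split_ifs <;> omega

/-- The capped problem has a large value if the other one has. -/
theorem prog {s v x y z γ ρ : ℕ} (h1 : s < 2 * v) (h2 : v ≤ γ * ρ * (2 * x + 24 * y) + ρ * y)
    (h3 : ρ * y ≤ (γ + 1) * z) (h4 : ρ * x ≤ z) : s ≤ 50 * (γ + 1) ^ 2 * z := by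
  have := Nat.mul_le_mul_left γ h3
  have := Nat.mul_le_mul_left γ h4
  nlinarith [Nat.zero_le (γ * z), Nat.zero_le (γ * γ * z)]

theorem XR.cut_scn (h : XR N rc big V E S) (hN : N.OK b) (hk : ∀ v ∈ S, k v = ρ) {Z : Finset ℕ}
    (hZ : Z ⊆ S) (T : ℕ → Prop) [DecidablePred T] (hT : ¬ T 0) (e : ∀ v ∈ V, T v ↔ v ∈ Z) :
    cutV 0 id (stat big V E k) T =
    ∑ u ∈ Z, ((N.adj u).map fun w => if w ∈ Z then 0 else rc u w).sum + ρ * Z.card +
      (big.map fun p => if p.1 ∈ Z then 0 else p.2).sum := by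
  have e1 : V.toFinset.filter T = Z := by
    ext v
    rw [mem_filter, List.mem_toFinset]
    exact ⟨fun a => (e v a.1).1 a.2, fun a => ⟨h.sV v (hZ a), (e v (h.sV v (hZ a))).2 a⟩⟩
  rw [h.cut hN T hT, e1, sum_congr rfl fun v hv => hk v (hZ hv), sum_const, smul_eq_mul,
    ← sum_subset hZ fun u hu hu' => by simp [e u (h.sV u hu), hu'],
    lsum_congr (y := fun p => if p.1 ∈ Z then 0 else p.2) fun p hp => by simp [e _ (h.key p hp)],
    sum_congr rfl (g := fun u => ((N.adj u).map fun w => if w ∈ Z then 0 else rc u w).sum)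
      fun u hu => lsum_congr fun w hw => by
        simp [e u (h.sV u (hZ hu)), e w (h.cl u (hZ hu) w hw), hu]]
  ring

/-- A small minimum cut of the problem with open sinks is a minimum cut of the network. -/
theorem XR.fin {f : Arr (Arr ℕ)} (h : XR N (rcap N f s) big V E S) (hN : N.OK b)
    (hk : ∀ v, k v = if v ∈ S then ρ else s) (hs : 0 < s) (T : ℕ → Prop) [DecidablePred T]
    (hT : ¬ T 0) (h2 : 2 * cutV 0 id (stat big V E k) T ≤ s)
    (hm : ∀ Z : Finset ℕ, 0 ∉ Z → cutV 0 id (stat big V E k) T ≤ cutV 0 id (stat big V E k) (· ∈ Z)) :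
    2 * N.val (fun u v => (f.get u).get v) ρ big (V.toFinset.filter T) ≤ s ∧
    ∀ Z ⊆ V.toFinset.filter T, N.val (fun u v => (f.get u).get v) ρ big (V.toFinset.filter T) ≤
      N.val (fun u v => (f.get u).get v) ρ big Z := by
  have hk' : ∀ v ∈ S, k v = ρ := fun v hv => by rw [hk, if_pos hv]
  have hZ : V.toFinset.filter T ⊆ S := fun v hv => by
    by_contra a
    have : k v ≤ ∑ v ∈ V.toFinset with T v, k v := single_le_sum (fun _ _ => Nat.zero_le _) hv
    rw [hk v, if_neg a] at this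
    rw [h.cut hN T hT] at h2
    omega
  have e := h.cut_scn hN hk' hZ T hT fun v hv => by simp [hv]
  have e' : N.val (fun u v => (f.get u).get v) ρ big (V.toFinset.filter T) =
      cutV 0 id (stat big V E k) T := by
    rw [e] at h2 ⊢
    unfold Nw.val
    congr 2
    refine sum_congr rfl fun u hu => lsum_congr fun w hw => ?_
    have a1 := single_le_sum (f := fun u => ((N.adj u).map fun w =>
      if w ∈ V.toFinset.filter T then 0 else rcap N f s u w).sum) (fun _ _ => Nat.zero_le _) hu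
    have a2 := List.le_sum_of_mem (List.mem_map_of_mem (f := fun w =>
      if w ∈ V.toFinset.filter T then 0 else rcap N f s u w) hw)
    split_ifs at a2 ⊢
    · rfl
    · unfold rcap at *
      omega
  refine ⟨e' ▸ h2, fun Z hZ' => ?_⟩
  have h0 : 0 ∉ Z := fun a => hT (mem_filter.1 (hZ' a)).2
  rw [e']
  refine (hm Z h0).trans ?_
  rw [h.cut_scn hN hk' (hZ'.trans hZ) _ h0 fun _ _ => Iff.rfl]
  unfold Nw.val
  gcongr with u hu
  refine lsum_le fun w _ => ?_
  split_ifs
  · rfl
  · exact min_le_right _ _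

end Vale.Agent.P305LC
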